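import Vale.Agent.N275.Chl
import Vale.Agent.P275T.Main

/-! From the notions of the starting statement to the present ones. -/

open scoped Manifold ContDiff Topology commutatorElement
open Filter CategoryTheory Limits MvPolynomial

noncomputable section

set_option backward.isDefEq.respectTransparency false

namespace Vale.Agent.N275

attribute [local instance] Curve.i2 Curve.i3 Curve.i4 Curve.i6

section higgs

variable {C : Curve} {n q : ℕ} {D : C.pts →₀ ℤ}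

/-- The two structures of Higgs bundles. -/
def hEq : Higgs C n D ≃ P275ST.Higgs C.pts n D where
  toFun E := ⟨⟨E.fr, E.mer, E.nz, E.fin⟩, E.θ, fun x => (E.hol x).imp fun _ h => h.1, E.tr, E.det,
    E.stable⟩
  invFun E := ⟨E.g, E.θ, E.mer, E.nz, E.fin, fun x => (E.hol x).imp fun _ h => ⟨h, trivial⟩, E.tr,
    E.det, E.stable⟩

/-- The two moduli spaces. -/
def xEq : XD C n D ≅ P275T.XD C.pts n D :=
  TopCat.isoOfHomeo
    { toEquiv := Quot.congr hEq fun _ _ => Iff.rfl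
      continuous_toFun := continuous_generateFrom_iff.2 fun _ hW =>
        TopologicalSpace.GenerateOpen.basic _ fun T _ E hE => hW T (fun t => hEq (E t)) hE
      continuous_invFun := continuous_generateFrom_iff.2 fun _ hW =>
        TopologicalSpace.GenerateOpen.basic _ fun T _ E hE => hW T (fun t => hEq.symm (E t)) hE }

theorem dz_eq (F : ℂ → Matrix (Fin n) (Fin n) ℂ) : dz (-Complex.I) F = P275ST.dz F := by
  funext z i j
  rw [dz, neg_mul, ← sub_eq_add_neg]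
  rfl

variable {p : C.pts} {x₀ : Pc p} {a : Fin q × Bool → FundamentalGroup (Pc p) x₀}

theorem map_cw {G H : Type} [Group G] [Group H] (φ : G →* H) (ρ : Fin q × Bool → G) :
    φ (cw ρ) = cw fun s => φ (ρ s) := by
  simp [cw, map_list_prod, List.map_ofFn, Function.comp_def]

/-- The marking in the starting form. -/
def Mark.old (h : Mark a) : P275ST.Marking q p x₀ where
  e := MulEquiv.ofBijective (FreeGroup.lift a) h.1
  rel := by
    have := (map_cw (FreeGroup.lift a) FreeGroup.of).trans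
      (congrArg cw (funext fun s => FreeGroup.lift_apply_of))
    exact (congrArg (P275ST.IsMeridian p x₀) this).mpr h.2

theorem mark_of (M : P275ST.Marking q p x₀) :
    Mark (x₀ := x₀) fun s => M.e (FreeGroup.of s) := by
  have e : FreeGroup.lift (fun s => M.e (FreeGroup.of s)) = M.e.toMonoidHom :=
    FreeGroup.ext_hom _ _ fun s => FreeGroup.lift_apply_of
  refine ⟨?_, (congrArg (P275ST.IsMeridian p x₀) (map_cw M.e.toMonoidHom FreeGroup.of)).mp M.rel⟩
  change Function.Bijective (FreeGroup.lift fun s => M.e (FreeGroup.of s))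
  rw [e]
  exact M.e.bijective

theorem nah_iff (h : Mark a) (l : C.pts → ℂ) (E : Higgs C n D) (ρ : Rp q n (deg D)) :
    NAH a l E ρ ↔ P275SF.NAH h.old l (hEq E) ρ := by
  have e : a = fun s => h.old.e.toFun (FreeGroup.of s) :=
    funext fun s => FreeGroup.lift_apply_of.symm
  refine (iff_of_eq (congrArg (NAH · l E ρ) e)).trans ?_
  simp only [NAH, Flat, dz_eq]
  rfl

end higgs

section zar

theorem krull_range {R S : Type} [CommRing R] [CommRing S] [Algebra ℂ R] [Algebra ℂ S]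
    (f : R →ₐ[ℂ] S) {I : Ideal R} (h : RingHom.ker f = I) :
    ringKrullDim (R ⧸ I) = ringKrullDim f.range := by
  subst h
  exact ringKrullDim_eq_of_ringEquiv (Ideal.quotientKerEquivRange f).toRingEquiv

variable {V σ : Type} [AddCommGroup V] [Module ℂ V] [FiniteDimensional ℂ V] (φ : σ → V →ₗ[ℂ] ℂ)
  (h : ∀ v ≠ 0, ∃ i, φ i v ≠ 0)

omit [FiniteDimensional ℂ V] in
theorem aeval_app (Z : Set V) (P : MvPolynomial σ ℂ) (z : Z) :
    aeval (fun i (w : Z) => φ i w) P z = aeval (fun i => φ i z) P :=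
  (DFunLike.congr_fun (comp_aeval (f := fun i (w : Z) => φ i w)
    (Pi.evalAlgHom ℂ (fun _ => ℂ) z)) P :)

include h

theorem range_aeval (Z : Set V) : (aeval fun i (w : Z) => φ i w).range = P275ST.Pol Z := by
  rw [← Algebra.adjoin_range_eq_range_aeval]
  refine le_antisymm (Algebra.adjoin_mono ?_) (Algebra.adjoin_le ?_)
  · rintro _ ⟨i, rfl⟩
    exact ⟨φ i, rfl⟩
  · rintro _ ⟨ψ, rfl⟩
    have h1 : ψ ∈ Submodule.span ℂ (Set.range φ) := by
      rw [Submodule.span_eq_top_of_ne_zero (s := Set.range φ)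
        fun v hv => (h v hv).elim fun i hi => ⟨_, ⟨i, rfl⟩, hi⟩]
      trivial
    induction h1 using Submodule.span_induction with
    | mem _ h => obtain ⟨i, rfl⟩ := h; exact Algebra.subset_adjoin ⟨i, rfl⟩
    | zero => exact zero_mem _
    | add _ _ _ _ h1 h2 => exact add_mem h1 h2
    | smul c _ _ h1 => exact Subalgebra.smul_mem _ h1 c

theorem zarLE_iff (e : ℤ) (Z : Set V) : ZarLE (fun v i => φ i v) e Z ↔ P275SF.ZarLE e Z := by
  have hk : RingHom.ker (aeval fun i (w : Z) => φ i w) =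
      vanishingIdeal ℂ ((fun v i => φ i v) '' Z) := by
    ext P
    rw [RingHom.mem_ker, mem_vanishingIdeal_iff, Set.forall_mem_image, funext_iff]
    exact ⟨fun H z hz => (aeval_app φ Z P ⟨z, hz⟩).symm.trans (H _),
      fun H z => (aeval_app φ Z P z).trans (H z.2)⟩
  refine and_congr (forall_congr' fun v => imp_congr_left ?_) ?_
  · rw [← range_aeval φ h]
    constructor
    · rintro H _ ⟨P, rfl⟩ hP
      refine (aeval_app φ Set.univ P ⟨v, trivial⟩).trans (H P ?_)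
      rintro _ ⟨z, hz, rfl⟩
      exact (aeval_app φ Set.univ P ⟨z, trivial⟩).symm.trans (hP z hz)
    · intro H P hP
      exact (aeval_app φ Set.univ P ⟨v, trivial⟩).symm.trans (H _ ⟨P, rfl⟩ fun z hz =>
        (aeval_app φ Set.univ P ⟨z, trivial⟩).trans (hP _ ⟨z, hz, rfl⟩))
  · have e1 := krull_range (R := MvPolynomial σ ℂ) (S := Z → ℂ) (aeval fun i (w : Z) => φ i w) hk
    rw [range_aeval φ h] at e1
    rw [e1]
    rfl

end zar

theorem zar_eq {C : Curve} {n : ℕ} [FiniteDimensional ℂ (P275ST.Base C.pts n)] :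
    ZarLE (crd (C := C) (n := n)) = P275SF.ZB C.pts n := by
  funext e Z
  let φ : Fin (n - 1) × C.pts → P275ST.Base C.pts n →ₗ[ℂ] ℂ := fun i =>
    { toFun := fun v => (v i.1).1 i.2, map_add' := fun _ _ => rfl, map_smul' := fun _ _ => rfl }
  refine propext (zarLE_iff φ (fun v hv => ?_) e Z)
  by_contra H
  refine hv (funext fun i => Subtype.ext (funext fun y => ?_))
  by_contra H'
  exact H ⟨(i, y), H'⟩

theorem prj_iff {E : Type} [NormedAddCommGroup E] [NormedSpace ℂ E] [NormedSpace ℝ E] {Y : Type}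
    [TopologicalSpace Y] [ChartedSpace E Y] : Prj E Y ↔ P275SF.Prj E Y :=
  exists₄_congr fun _ _ _ _ => and_congr_right' (and_congr_right'
    ⟨fun h => ⟨fun i j y a b => (h i y a).2 j b, fun i e y a b => (h i y b).1 e a⟩,
      fun h i y a => ⟨fun e b => h.2 i e y b a, fun j b => h.1 i j y a b⟩⟩)

variable {q n : ℕ} {d : ℤ}

theorem good_of (K : P275SF.CptB q n d) : Good (X := XB q n d) (2 * dimR q n) IsReg K.j :=
  ⟨K.ch, K.t2, K.cpt, K.emb, K.dense, K.mf, (@prj_iff _ _ _ _ _ K.top K.ch).2 K.prj, K.r, K.G,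
    K.snc, K.rng, K.mer, K.crd⟩

theorem Good.ind {Y : TopCat.{0}} {j : XB q n d ⟶ Y} (h : Good (2 * dimR q n) IsReg j)
    {P : ∀ Y : TopCat.{0}, (XB q n d ⟶ Y) → Prop} (H : ∀ K : P275SF.CptB q n d, P K.T K.j) :
    P Y j := by
  obtain ⟨ch, h1, h2, h3, h4, h5, h6, r, G, h7, h8, h9, h10⟩ := h
  exact H (@P275SF.Cpt.mk _ _ _ _ _ _ _ _ Y _ h1 h2 ch h5 ((@prj_iff _ _ _ _ _ _ ch).1 h6) r G h7 j.hom h3 h8 h4 h9 h10)

section abelian

variable {A B : Type 1} [Category.{0} A] [Abelian A] [Category.{0} B] [Abelian B]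
  [HasDerivedCategory.{1} B] [HasExt.{1} A] (F : A ⥤ B) [F.Additive] {P : A} {P' : B}
  (η : P' ⟶ F.obj P) (R : InjectiveResolution P)

theorem mem_img {L : DerivedCategory B} (u : L ⟶ dc (RF F R)) (m : ℕ) (a : Abelian.Ext P P m) :
    a ∈ Img F η R u m ↔ ∃ c : P275SF.sg P m ⟶ R.cochainComplex,
      Rep R a ((HomologicalComplex.singleObjXSelf (.up ℤ) (m : ℤ) P).inv ≫ c.f m) ∧
      P275SF.Thru u (P275SF.img F η c) := by
  constructor
  · rintro ⟨t, h1, c, φ, h2, h3⟩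
    obtain ⟨ht, -⟩ := (rep_iff R a t).1 h1
    let c' : (HomologicalComplex.single A (.up ℤ) (m : ℤ)).obj P ⟶ R.cochainComplex :=
      HomologicalComplex.mkHomFromSingle t fun i hi => by
        obtain rfl : (m : ℤ) + 1 = i := hi
        exact ht
    have e : (HomologicalComplex.singleObjXSelf (.up ℤ) (m : ℤ) P).inv ≫ c'.f m = t :=
      (Iso.inv_comp_eq _).2 (HomologicalComplex.mkHomFromSingle_f _ _)
    refine ⟨c', e.symm ▸ h1, φ, h3.trans (congrArg _
      (HomologicalComplex.from_single_hom_ext (h2.trans ?_)))⟩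
    exact ((Iso.inv_comp_eq _).1 ((P275SF.img_f F η c').trans (by rw [e]))).symm
  · rintro ⟨c, h1, φ, h2⟩
    exact ⟨_, h1, _, φ, (Iso.inv_comp_eq _).1 (P275SF.img_f F η c), h2⟩

theorem img_congr {B' : Type 1} [Category.{0} B'] [Abelian B'] [HasDerivedCategory.{1} B']
    (F' : A ⥤ B') [F'.Additive] {P'' : B'} (η' : P'' ⟶ F'.obj P) {L : DerivedCategory B}
    {L' : DerivedCategory B'} (u : L ⟶ dc (RF F R)) (u' : L' ⟶ dc (RF F' R)) (m : ℕ)
    (h : ∀ c : P275SF.sg P m ⟶ R.cochainComplex,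
      P275SF.Thru u (P275SF.img F η c) ↔ P275SF.Thru u' (P275SF.img F' η' c)) :
    Img F η R u m = Img F' η' R u' m :=
  Set.ext fun a => (mem_img F η R u m a).trans
    ((exists_congr fun c => and_congr_right' (h c)).trans (mem_img F' η' R u' m a).symm)

end abelian

theorem of_peqw {X Y : TopCat.{0}} {Z : ℤ → Set Y → Prop} {R : ℕ} {h : X ⟶ Y} {ι : Type 1}
    {T : ι → TopCat.{0}} {j : ∀ i, X ⟶ T i} (H : P275SF.PEqW Z R h j) (i₀ : ι) (k : ℕ) :
    IsP ℚ Z h (k + R) (Wt ℚ (j i₀) (2 * k)) ∧ ∀ i m, Wt ℚ (j i₀) (2 * k) m = Wt ℚ (j i) (2 * k) m ∧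
      Wt ℚ (j i) (2 * k) m = Wt ℚ (j i) (2 * k + 1) m := by
  obtain ⟨⟨L, u, hu⟩, H⟩ := H k
  refine ⟨⟨⟨L, u, hu⟩, fun L u hu => funext fun m => ?_⟩, fun i m => ⟨?_, ?_⟩⟩
  · exact img_congr _ _ _ _ _ _ _ m fun c => (H L u hu i₀ m c).1.symm
  · exact img_congr _ _ _ _ _ _ _ m fun c => (H L u hu i₀ m c).1.symm.trans (H L u hu i m c).1
  · exact img_congr _ _ _ _ _ _ _ m fun c => (H L u hu i m c).2

theorem chl_XB (hq : 2 ≤ q) (hn : 2 ≤ n) (hc : IsCoprime (n : ℤ) d) (K : P275SF.CptB q n d) :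
    ∃ α, ∀ (Y : TopCat.{0}) (j : XB q n d ⟶ Y), Good (2 * dimR q n) IsReg j →
      CHL (Wt ℂ j) (2 * dimR q n) α := by
  have : P275XB.Ok q n d := ⟨by omega, by omega, hc⟩
  have : P275S.Nice (XB q n d) := P275PA.nice_TX K.st
  obtain ⟨w, h0, -, h⟩ := P275DS.ex_chl (g := q) (d := d) P275RK.pkx hn
  obtain ⟨α, hα⟩ := ph_surj (X := XB q n d) (p := 2) (P275MC.cl_mem 2 ⟨w, h0⟩)
  refine ⟨α, fun Y j hj => hj.ind (P := fun _ j => CHL (Wt ℂ j) (2 * dimR q n) α) fun K => ?_⟩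
  have h1 := (P275WB.chlH_iff K.st _).2 h
  rw [← hα] at h1
  exact chl_of_lef (X := XB q n d) K.j α _ h1.1 h1.2

theorem main (C : Curve) (p : C.pts) (x₀ : Pc p) :
    (∃ (g : ℕ) (a : Fin g × Bool → FundamentalGroup (Pc p) x₀), Mark a) ∧
    ∀ (g n : ℕ) (D : C.pts →₀ ℤ) (a : Fin g × Bool → FundamentalGroup (Pc p) x₀), Mark a →
      2 ≤ g → 2 ≤ n → IsCoprime (n : ℤ) (deg D) →
      (∃ l, IsTriv D p l) ∧ (∃ (Y : TopCat) (j : XB g n (deg D) ⟶ Y), Good (2 * dimR g n) IsReg j) ∧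
      (∀ l, IsTriv D p l → ∃ (h : XD C n D ⟶ Base C n) (ν : XD C n D ≅ XB g n (deg D))
        (P : ℕ → ∀ m, Set (H ℚ (XB g n (deg D)) m)), IsProperMap (fn h) ∧
        (∀ E : Higgs C n D, E.Hit (fn h E.pt) ∧ ∀ ρ, NAH a l E ρ ↔ fn ν.hom E.pt = pt ρ) ∧
        (∀ k : ℕ, IsP ℚ (ZarLE crd) (ν.inv ≫ h) (k + dimR g n) (P k)) ∧
        (∀ (Y : TopCat) (j : XB g n (deg D) ⟶ Y), Good (2 * dimR g n) IsReg j → ∀ k m : ℕ,
          P k m = Wt ℚ j (2 * k) m ∧ Wt ℚ j (2 * k) m = Wt ℚ j (2 * k + 1) m) ∧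
        ∀ k k' m m', ∀ u ∈ P k m, ∀ v ∈ P k' m', cup u v ∈ P (k + k') (m + m')) ∧
      ∃ α, ∀ (Y : TopCat) (j : XB g n (deg D) ⟶ Y), Good (2 * dimR g n) IsReg j →
        CHL (Wt ℂ j) (2 * dimR g n) α := by
  obtain ⟨⟨g, ⟨M⟩⟩, h1⟩ := P275T.pw C.pts p x₀
  refine ⟨⟨g, _, mark_of M⟩, fun g n D a ha hg hn hc => ?_⟩
  obtain ⟨a1, ⟨K⟩, a3⟩ := h1 g n D ha.old hg hn hc
  refine ⟨a1, ⟨_, _, good_of K⟩, fun l hl => ?_, chl_XB hg hn hc K⟩
  obtain ⟨h, ν, b1, b2, b3⟩ := a3 l hl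
  have : FiniteDimensional ℂ (P275ST.Base C.pts n) :=
    P275HB.fdb { C := C.pts, p, x₀, g, n, D, M := ha.old, adm := ⟨hg, hn, hc⟩, ℓ := l, triv := hl }
  have : P275S.Nice (XB g n (deg D)) := P275PA.nice_TX K.st
  have : P275S.Nice K.T := P275LE.nice_mf K.mf'
  refine ⟨xEq.hom ≫ h, xEq ≪≫ ν, fun k => Wt ℚ K.j (2 * k),
    b1.comp (TopCat.homeoOfIso xEq).isProperMap,
    fun E => ⟨(b2 (hEq E)).1, fun ρ => (nah_iff ha l E ρ).trans ((b2 (hEq E)).2 ρ)⟩, fun k => ?_,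
    fun Y j hj k m => hj.ind (P := fun _ j => Wt ℚ K.j (2 * k) m = Wt ℚ j (2 * k) m ∧
      Wt ℚ j (2 * k) m = Wt ℚ j (2 * k + 1) m) fun K' => (of_peqw b3 K k).2 K' m,
    fun k k' m m' u hu v hv => ?_⟩
  · rw [zar_eq, Iso.trans_inv, Category.assoc, Iso.inv_hom_id_assoc]
    exact (of_peqw b3 K k).1
  · have h2 := wt_cup (X := XB g n (deg D)) K.j hu hv
    rwa [← mul_add, ← Nat.cast_add] at h2

end Vale.Agent.N275
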