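import Vale.Agent.N275.Ext
import Vale.Agent.P275PU.Sh

/-! Transfer of the Lefschetz property from the working cohomology ring to `Ext`. -/

open CategoryTheory P275S Vale.Agent.P275Z Vale.Agent.P275PU

noncomputable section

set_option backward.isDefEq.respectTransparency false

namespace Vale.Agent.N275

variable {X Y : TopCat.{0}} [Nice X] {p q : ℕ} {u v : List X → ℂ}

variable (X) in
/-- The Alexander-Spanier resolution. -/
def RA : Rz ℂ X := Rz.mk' (AS ℂ X) (asOne ℂ X) d_asOne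

/-- The class in the working cohomology ring. -/
def ph (a : H ℂ X p) : P275S.H ℂ X :=
  (RA X).cl (am p ⊤ (ea_surj a).choose) (ea_surj a).choose_spec.choose

theorem ph_ea (h : Cy p u) : ph (ea h) = (RA X).cl (am p ⊤ u) h :=
  ((RA X).cl_eq_iff softC_AS _ _ _ _ (p - 1) (by simp)).2
    ((ea_eq _ h).1 (ea_surj (ea h)).choose_spec.choose_spec)

theorem ph_mem (a : H ℂ X p) : ph a ∈ Hd ℂ X p := (RA X).cl_mem _ _

theorem ph_surj {b : P275S.H ℂ X} (hb : b ∈ Hd ℂ X p) : ∃ a : H ℂ X p, ph a = b := by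
  obtain ⟨c, hc, rfl⟩ := (RA X).cl_surj softC_AS hb
  obtain ⟨u, rfl⟩ := am_surj _ _ c
  exact ⟨ea hc, ph_ea hc⟩

theorem ph_sub (a b : H ℂ X p) : ph (a - b) = ph a - ph b := by
  obtain ⟨u, hu, rfl⟩ := ea_surj a
  obtain ⟨v, hv, rfl⟩ := ea_surj b
  rw [← ea_sub, ph_ea, ph_ea, ph_ea, eq_sub_iff_add_eq, ← Rz.cl_add]
  exact (RA X).cl_congr (by rw [map_sub]; exact sub_add_cancel _ _) _

theorem ph_cup (a : H ℂ X p) (b : H ℂ X q) : ph (cup a b) = ph b * ph a := by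
  obtain ⟨u, hu, rfl⟩ := ea_surj a
  obtain ⟨v, hv, rfl⟩ := ea_surj b
  rw [ea_cup, ph_ea, ph_ea, ph_ea]
  refine Eq.symm (((RA X).mul_clx (RA X) ((RA X).realise_mk (RA X) (zL hv) hv (asL_one q v))
    _).trans (congrArg (RA X).clx ((gcl_comp_mk (m := (p + q : ℕ)) (by simp) _ hu (zL hv)).trans
      (gcl_congr ?_ _))))
  exact (asL_mk q p _ v u ⊤).trans (am_cx (p := p) ⊤ (by omega) v u)

theorem ph_pw (a : H ℂ X 2) (i : ℕ) : ph (pw a i) = ph a ^ i := by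
  induction i with
  | zero => exact (congrArg ph ea_one.symm).trans ((ph_ea cy_one).trans (RA X).cl_one)
  | succ i ih => exact (ph_cup (pw a i) a).trans (by rw [ih, pow_succ'])

theorem ph_wt (j : X ⟶ Y) (w : ℤ) (a : H ℂ X p) : a ∈ Wt ℂ j w p ↔ ph a ∈ WH j w := by
  obtain ⟨u, hu, rfl⟩ := ea_surj a
  have e : (RA X).cl (am p ⊤ u) hu = cH ⟨app ((RA X).ρ.f p) ⊤ (am p ⊤ u), cocy_map (RA X).ρ hu⟩ :=
    (evI ℂ X).injective (((RA X).evI_cl _ _).trans ((gcl_comp_hom _ hu (RA X).ρ).trans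
      ((evI ℂ X).apply_symm_apply _).symm))
  have := qis_push j softC_AS (softC_I ℂ X) (RA X).ρ
  rw [ph_ea, e, cH_mem_WH, ea_mem]
  exact (trLE_cls_qis ((pushC ℂ j).map (RA X).ρ) (km j p ⊤ u) hu).symm

theorem chl_of_lef (j : X ⟶ Y) (a : H ℂ X 2) (r : ℤ)
    (h : P275JM.Lef (LinearMap.mulLeft ℂ (ph a)) r fun b => WH j (2 * b))
    (h' : ∀ b : ℤ, WH j (2 * b + 1) = WH j (2 * b)) : CHL (Wt ℂ j) (2 * r) a := by
  have hp : ∀ (i : ℕ) x, (LinearMap.mulLeft ℂ (ph a) ^ i) x = ph a ^ i * x := fun i x => by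
    rw [LinearMap.pow_mulLeft, LinearMap.mulLeft_apply]
  have h1 : ∀ b w : ℤ, w = 2 * b + 1 → WH j w = WH j (2 * b) := fun b w e => e ▸ h' b
  refine ⟨fun w m v hv => ?_, fun i m => ⟨fun v hv h2 => ?_, fun u hu => ?_⟩⟩
  · rw [ph_wt] at hv ⊢
    rw [ph_cup]
    obtain ⟨b, rfl | rfl⟩ := Int.even_or_odd' w
    · exact WH_mono j (by omega) (h.up b _ hv)
    · exact WH_mono j (by omega) (h.up b _ (h' b ▸ hv))
  · rw [ph_wt] at hv h2 ⊢
    rw [ph_cup, ph_pw, ← hp, h1 (r + i - 1) _ (by omega)] at h2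
    exact WH_mono j (by omega) (h.inj i _ (WH_mono j (by omega) hv) h2)
  · rw [ph_wt] at hu
    obtain ⟨x, h2, h3⟩ := h.surj i _ (WH_mono j (by omega) hu)
    obtain ⟨v, hv⟩ := ph_surj (p := m) (KG.pr_mem_deg (m : ℤ) x)
    refine ⟨v, (ph_wt j _ v).2 (hv ▸ WH_mono j (by omega) (pr_WH j h2 m)), (ph_wt j _ _).2 ?_⟩
    have h4 := pr_WH j h3 (m + 2 * i : ℕ)
    rw [map_sub, KG.pr_of_mem (ph_mem u), hp, ← ph_pw, End.mul_def,
      KG.pr_comp_of_right (by simp : (m : ℤ) + (2 * i : ℕ) = (m + 2 * i : ℕ)) x (ph_mem _)] at h4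
    rw [ph_sub, ph_cup, hv]
    exact WH_mono j (by omega) h4

end Vale.Agent.N275
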