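import Vale.Agent.N275.Lst
import Vale.Agent.P275S.AS
import Vale.Agent.P275S.Trunc

/-! The double complex of Alexander-Spanier cochains of a map, and the multiplicativity of the
Leray filtration. -/

open CategoryTheory TopologicalSpace Limits Topology Filter P275S

noncomputable section

namespace Vale.Agent.N275

variable {k : Type} [Field k] {X Y : TopCat.{0}}

theorem exists_idx [Nice Y] {ι : Type} [Nonempty ι] (V : ι → Opens Y) : ∃ b : Y → ι,
    ∀ y ∈ iSup V, ∃ S : Set ι, S.Finite ∧ (∀ j ∈ S, y ∈ V j) ∧ ∀ᶠ z in 𝓝 y, b z ∈ S := by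
  classical
  have h1 : ∀ x : Y, x ∈ iSup V → ∃ i, ∃ C ∈ 𝓝 x, IsClosed C ∧ C ⊆ V i := fun x hx => by
    obtain ⟨i, hi⟩ := Opens.mem_iSup.1 hx
    exact ⟨i, exists_mem_nhds_isClosed_subset ((V i).2.mem_nhds hi)⟩
  choose! a C hC1 hC2 hC3 using h1
  obtain ⟨t, ht1, ht2, ht3⟩ := TopologicalSpace.countable_cover_nhdsWithin
    (s := ((iSup V : Opens Y) : Set Y)) (f := fun x => interior (C x))
    fun x hx => mem_nhdsWithin_of_mem_nhds (interior_mem_nhds.2 (hC1 x hx))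
  obtain ⟨e, he⟩ := Set.countable_iff_exists_injOn.1 ht2
  have h2 : ∀ z : Y, z ∈ iSup V → ∃ j : ℕ, ∃ x ∈ t, e x = j ∧ z ∈ interior (C x) := fun z hz => by
    obtain ⟨x, hx, hz⟩ := Set.mem_iUnion₂.1 (ht3 hz)
    exact ⟨_, x, hx, rfl, hz⟩
  have h3 : ∀ z : Y, ∃ x, z ∈ iSup V →
      x ∈ t ∧ z ∈ C x ∧ ∀ x' ∈ t, z ∈ interior (C x') → e x ≤ e x' := fun z => by
    by_cases hz : z ∈ iSup V
    · obtain ⟨x, hx, e1, e2⟩ := Nat.find_spec (h2 z hz)
      exact ⟨x, fun _ => ⟨hx, interior_subset e2, fun x' hx' hz' =>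
        e1 ▸ Nat.find_min' (h2 z hz) ⟨x', hx', rfl, hz'⟩⟩⟩
    · exact ⟨z, fun h => (hz h).elim⟩
  choose b hb using h3
  refine ⟨fun z => a (b z), fun y hy => ?_⟩
  obtain ⟨x0, hx0, hy0⟩ := Set.mem_iUnion₂.1 (ht3 hy)
  have hfin : (t ∩ e ⁻¹' Set.Iic (e x0)).Finite :=
    Set.Finite.of_finite_image (f := e) ((Set.finite_Iic (e x0)).subset (by
      rintro _ ⟨x, hx, rfl⟩
      exact hx.2)) (he.mono Set.inter_subset_left)
  refine ⟨a '' {x ∈ t ∩ e ⁻¹' Set.Iic (e x0) | y ∈ C x}, (hfin.subset fun _ h => h.1).image _,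
    ?_, ?_⟩
  · rintro _ ⟨x, hx, rfl⟩
    exact hC3 x (ht1 hx.1.1) hx.2
  · have h4 : ∀ᶠ z in 𝓝 y, ∀ x ∈ t ∩ e ⁻¹' Set.Iic (e x0), z ∈ C x → y ∈ C x :=
      (eventually_all_finite hfin).2 fun x hx => by
        by_cases hyx : y ∈ C x
        · exact Eventually.of_forall fun _ _ => hyx
        · filter_upwards [(hC2 x (ht1 hx.1)).isOpen_compl.mem_nhds hyx] with z hz hz'
          exact (hz hz').elim
    filter_upwards [h4, isOpen_interior.mem_nhds hy0, (iSup V).2.mem_nhds hy] with z z1 z2 z3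
    obtain ⟨d1, d2, d3⟩ := hb z z3
    exact ⟨b z, ⟨⟨d1, d3 x0 hx0 z2⟩, z1 _ ⟨d1, d3 x0 hx0 z2⟩ d2⟩, rfl⟩

theorem zn_mono {s : ℤ} {U V : Opens X} (h : V ≤ U) {m : List X → k} (hm : m ∈ Zn k s U) :
    m ∈ Zn k s V := fun x hx => hm x (h hx)

theorem zn_of {s : ℤ} {U : Opens X} {m : List X → k}
    (h : ∀ l : List X, 0 ≤ s → (l.length : ℤ) = s + 1 → m l = 0) : m ∈ Zn k s U :=
  fun _ _ => ⟨Set.univ, univ_mem, fun l a b _ => h l a b⟩

theorem zn_DD {s : ℤ} {U : Opens X} {m : List X → k} (hm : m ∈ Zn k s U) :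
    DD k m ∈ Zn k (s + 1) U := fun x hx => by
  obtain ⟨V, hV, h⟩ := hm x hx
  exact ⟨V, hV, fun l _ c2 c3 => (Submodule.mem_bot k).1 (DD_mem ⊥ l m fun l' d1 d2 d3 => by
    have := List.length_pos_iff.2 d3
    exact h l' (by omega) (by omega) fun y hy => c3 y (d1.subset hy))⟩

theorem zn_cx {s s' : ℕ} {U : Opens X} {m m' : List X → k}
    (h : m ∈ Zn k s U ∨ m' ∈ Zn k s' U) : cx s m m' ∈ Zn k (s + s') U := fun x hx => by
  rcases h with h | h
  · obtain ⟨V, hV, h⟩ := h x hx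
    refine ⟨V, hV, fun l _ c2 c3 => ?_⟩
    rw [cp_apply, h _ (by omega) (by rw [List.length_take]; omega)
      fun y hy => c3 y (List.mem_of_mem_take hy), map_zero, LinearMap.zero_apply]
  · obtain ⟨V, hV, h⟩ := h x hx
    refine ⟨V, hV, fun l _ c2 c3 => ?_⟩
    rw [cp_apply, pr_ne (by rw [Ne, List.drop_eq_nil_iff]; omega),
      h _ (by omega) (by rw [List.length_drop]; omega)
      fun y hy => c3 y (List.mem_of_mem_drop hy), map_zero]

variable (f : X ⟶ Y)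

/-- The preimage of an open set. -/
abbrev pre (V : Opens Y) : Opens X := (Opens.map f).obj V

/-- The components `(r, s)`, `r + s = n`, `s > a`, vanish over `V`. -/
def GV (a n : ℤ) (V : Opens Y) (φ : PP k X Y) : Prop :=
  ∀ (l : List Y) (s : ℕ), a < s → (l.length : ℤ) + s = n + 1 → l ≠ [] → (∀ z ∈ l, z ∈ V) →
    φ l ∈ Zn k s (pre f V)

variable {f} in
theorem GV.mono {a n : ℤ} {V W : Opens Y} {φ : PP k X Y} (h : GV f a n V φ) (hW : W ≤ V) :
    GV f a n W φ := fun l s a1 a2 a3 a4 =>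
  zn_mono (U := pre f V) (fun _ hx => hW hx) (h l s a1 a2 a3 fun z hz => hW (a4 z hz))

variable (k) in
/-- The functions whose components `(r, s)`, `s > a`, vanish near the diagonal of `U`. -/
def GZ (a n : ℤ) (U : Opens Y) : Submodule k (PP k X Y) where
  carrier := {φ | ∀ y ∈ U, ∃ V : Opens Y, y ∈ V ∧ GV f a n V φ}
  zero_mem' := fun _ _ => ⟨⊤, trivial, fun _ _ _ _ _ _ => Submodule.zero_mem _⟩
  add_mem' := fun ha hb y hy => by
    obtain ⟨V, hV, h⟩ := ha y hy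
    obtain ⟨W, hW, h'⟩ := hb y hy
    exact ⟨V ⊓ W, ⟨hV, hW⟩, fun l s a1 a2 a3 a4 => Submodule.add_mem _
      (h.mono inf_le_left l s a1 a2 a3 a4) (h'.mono inf_le_right l s a1 a2 a3 a4)⟩
  smul_mem' := fun c _ h y hy => by
    obtain ⟨V, hV, h⟩ := h y hy
    exact ⟨V, hV, fun l s a1 a2 a3 a4 => Submodule.smul_mem _ c (h l s a1 a2 a3 a4)⟩

variable {f} {a b c n : ℤ} {U V : Opens Y} {φ ψ : PP k X Y}

theorem gz_res (h : V ≤ U) (hφ : φ ∈ GZ k f a n U) : φ ∈ GZ k f a n V := fun y hy => hφ y (h hy)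

theorem gz_of (h : GV f a n U φ) : φ ∈ GZ k f a n U := fun _ hy => ⟨U, hy, h⟩

theorem gz_imp {n' : ℤ} (h : ∀ V, GV f a n V φ → GV f b n' V ψ) (hφ : φ ∈ GZ k f a n U) :
    ψ ∈ GZ k f b n' U := fun y hy => (hφ y hy).imp fun V hV => ⟨hV.1, h V hV.2⟩

theorem gz_mono (h : a ≤ b) (hφ : φ ∈ GZ k f a n U) : φ ∈ GZ k f b n U :=
  gz_imp (fun _ hV l s a1 => hV l s (by omega)) hφ

theorem gz_bot (hφ : φ ∈ GZ k f (-1) n U) : φ ∈ GZ k f a n U :=
  gz_imp (fun _ hV l s _ => hV l s (by omega)) hφ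

theorem gz_top (h : n ≤ a) (φ : PP k X Y) : φ ∈ GZ k f a n U :=
  gz_of fun l s a1 a2 a3 => by
    have := List.length_pos_iff.2 a3
    omega

theorem gz_neg (h : n < 0) (φ : PP k X Y) : φ ∈ GZ k f a n U :=
  gz_bot (gz_top (by omega) φ)

theorem gz_DY (hφ : φ ∈ GZ k f a n U) : DD k φ ∈ GZ k f a (n + 1) U :=
  gz_imp (fun _ hV l s a1 a2 _ a4 => DD_mem _ l φ fun m d1 d2 d3 =>
    hV m s a1 (by omega) d3 fun z hz => a4 z (d1.subset hz)) hφ

theorem gz_sgn (hφ : φ ∈ GZ k f a n U) : sgn (k := k) φ ∈ GZ k f a n U :=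
  gz_imp (fun _ hV l s a1 a2 a3 a4 => Submodule.smul_mem _ _ (hV l s a1 a2 a3 a4)) hφ

theorem gz_DX (hφ : φ ∈ GZ k f (-1) n U) : DX φ ∈ GZ k f (-1) (n + 1) U :=
  gz_imp (fun _ hV l s _ a2 a3 a4 => by
    cases s with
    | zero => exact zn_of fun m _ e => DD_short (k := k) (φ l) (by omega)
    | succ s => exact zn_DD (hV l s (by omega) (by omega) a3 a4)) hφ

theorem gz_DT (hφ : φ ∈ GZ k f (-1) n U) : DT φ ∈ GZ k f (-1) (n + 1) U :=
  Submodule.add_mem _ (gz_DY hφ) (gz_sgn (gz_DX hφ))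

theorem gz_DT_iff (hφ : φ ∈ GZ k f a n U) :
    DT φ ∈ GZ k f a (n + 1) U ↔ DX φ ∈ GZ k f a (n + 1) U := by
  rw [DT_apply, Submodule.add_mem_iff_right _ (gz_DY hφ)]
  exact ⟨fun h => sgn_sgn (k := k) (DX φ) ▸ gz_sgn h, gz_sgn⟩

theorem gz_io {m : List X → k} (h : m ∈ Zn k n (pre f U)) : io m ∈ GZ k f a n U :=
  gz_of fun l s _ a2 _ _ => by
    rw [io_apply]
    by_cases e : l.length = 1
    · rw [if_pos e, show (s : ℤ) = n by omega]
      exact h
    · rw [if_neg e]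
      exact Submodule.zero_mem _

theorem GV.one (h : GV f a n V φ) (ha : a < n) {y : Y} (hy : y ∈ V) : φ [y] ∈ Zn k n (pre f V) := by
  by_cases hn : 0 ≤ n
  · obtain ⟨s, rfl⟩ := Int.eq_ofNat_of_zero_le hn
    exact h [y] s ha (by simp; omega) (by simp) fun z hz => List.mem_singleton.1 hz ▸ hy
  · exact zn_of fun _ e => (hn e).elim

theorem GV.cn (h : GV f a n V φ) {y : Y} (hy : y ∈ V) : GV f a (n - 1) V (cn y φ) :=
  fun l s a1 a2 _ a4 => h (y :: l) s a1 (by simp; omega) (by simp) fun z hz =>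
    (List.mem_cons.1 hz).elim (fun e => e ▸ hy) (a4 z)

theorem gz_cone (y : Y) (φ : PP k X Y) :
    DT (cn y φ) + cn y (DT φ) + io (φ [y]) - φ ∈ GZ k f a n U :=
  gz_of fun l s _ _ a3 _ => by
    rw [Pi.sub_apply, Pi.add_apply, Pi.add_apply, ← cone y φ a3, sub_self]
    exact Submodule.zero_mem _

theorem gz_mul {p : ℕ} {q : ℤ} (h : ∀ s s' : ℕ, c < s + s' → a < s ∨ b < s')
    (hφ : φ ∈ GZ k f a p U) (hψ : ψ ∈ GZ k f b q U) : mul p φ ψ ∈ GZ k f c (p + q) U := by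
  intro y hy
  obtain ⟨V, hV, h1⟩ := hφ y hy
  obtain ⟨W, hW, h2⟩ := hψ y hy
  replace h1 := h1.mono (inf_le_left : V ⊓ W ≤ V)
  replace h2 := h2.mono (inf_le_right : V ⊓ W ≤ W)
  refine ⟨V ⊓ W, ⟨hV, hW⟩, fun l S a1 a2 _ a4 => ?_⟩
  rw [mul_ap, Finset.sum_apply]
  refine Submodule.sum_mem _ fun i hi => ?_
  have e := Finset.HasAntidiagonal.mem_antidiagonal.1 hi
  by_cases h3 : l.length ≤ i.1
  · rw [cp_short _ _ _ h3]
    exact Submodule.zero_mem _
  by_cases h4 : S < i.2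
  · exact zn_of fun m _ e' => cp_short (LinearMap.mul k k) (p := i.2) _ _ (l := m) (by omega)
  obtain ⟨s', rfl⟩ := Nat.exists_eq_add_of_le (not_lt.1 h4)
  have h5 : l.drop i.1 ≠ [] := by rw [Ne, List.drop_eq_nil_iff]; exact h3
  rw [cp_apply, pr_ne h5, Nat.cast_add]
  refine zn_cx ((h i.2 s' (by omega)).imp (fun h6 => h1 _ _ h6 (by rw [List.length_take]; omega)
    (by rw [Ne, List.take_eq_nil_iff]; rintro (e' | rfl) <;> simp at *)
    fun z hz => a4 z (List.mem_of_mem_take hz)) fun h6 => ?_)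
  have h7 := h2 _ _ h6 (by rw [List.length_drop]; omega) h5
    fun z hz => a4 z (List.mem_of_mem_drop hz)
  generalize i.2 = j
  induction j with
  | zero => exact h7
  | succ j ih => rw [pow_succ']; exact Submodule.smul_mem _ _ ih

theorem gz_mulL {p : ℕ} {q : ℤ} (hφ : φ ∈ GZ k f (-1) p U) (ψ : PP k X Y) :
    mul p φ ψ ∈ GZ k f (-1) (p + q) U :=
  gz_mul (fun _ _ _ => Or.inl (by omega)) hφ (gz_top le_rfl ψ)

theorem gz_mulR {p : ℕ} {q : ℤ} (φ : PP k X Y) (hψ : ψ ∈ GZ k f (-1) q U) :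
    mul p φ ψ ∈ GZ k f (-1) (p + q) U :=
  gz_mul (fun _ _ _ => Or.inr (by omega)) (gz_top le_rfl φ) hψ

theorem gz_glue [Nice Y] {ι : Type} (V : ι → Opens Y) (φ : ι → PP k X Y)
    (h : ∀ i j, φ i - φ j ∈ GZ k f a n (V i ⊓ V j)) :
    ∃ g : PP k X Y, ∀ i, g - φ i ∈ GZ k f a n (V i) := by
  by_cases hne : Nonempty ι
  swap
  · exact ⟨0, fun i => (hne ⟨i⟩).elim⟩
  obtain ⟨b, hb⟩ := exists_idx V
  refine ⟨fun l => match l with
    | [] => 0
    | z :: l => φ (b z) (z :: l), fun i y hy => ?_⟩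
  obtain ⟨S, h1, h2, h3⟩ := hb y (le_iSup V i hy)
  choose! W hW1 hW2 using fun j (hj : j ∈ S) => h j i y ⟨h2 j hj, hy⟩
  obtain ⟨O, o1, o2, o3⟩ := mem_nhds_iff.1 (h3.and ((eventually_all_finite h1).2
    fun j hj => (W j).2.mem_nhds (hW1 j hj)))
  refine ⟨⟨O, o2⟩, o3, fun l s a1 a2 a3 a4 => ?_⟩
  match l, a2, a3, a4 with
  | z :: l, a2, a3, a4 =>
    have hz := (o1 (a4 z List.mem_cons_self)).1
    exact (hW2 _ hz).mono (W := ⟨O, o2⟩) (fun w hw => (o1 hw).2 _ hz) _ s a1 a2 a3 a4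

variable [Nice Y]

variable (k f) in
/-- The cochains of total degree `n`. -/
def Bn (n : ℤ) : Sh k Y :=
  Data.sh
    { M := fun U => ModuleCat.of k (PP k X Y ⧸ GZ k f (-1) n U)
      r := fun h => Submodule.factor fun _ => gz_res h
      r_self := fun U s => by
        obtain ⟨φ, rfl⟩ := Submodule.Quotient.mk_surjective _ s
        rfl
      r_r := fun h h' s => by
        obtain ⟨φ, rfl⟩ := Submodule.Quotient.mk_surjective _ s
        rfl
      loc := fun U s hs => by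
        obtain ⟨φ, rfl⟩ := Submodule.Quotient.mk_surjective _ s
        refine (Submodule.Quotient.mk_eq_zero _).2 fun x hx => ?_
        obtain ⟨V, hV, hxV, h0⟩ := hs x hx
        exact (Submodule.Quotient.mk_eq_zero (GZ k f (-1) n V)).1 h0 x hxV
      gl := fun V s hs => by
        choose φ hφ using fun i => Submodule.Quotient.mk_surjective _ (s i)
        obtain ⟨g, hg⟩ := gz_glue V φ fun i j => by
          have := hs i j
          rw [← hφ i, ← hφ j] at this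
          exact (Submodule.Quotient.eq (GZ k f (-1) n (V i ⊓ V j))).1 this
        refine ⟨Submodule.Quotient.mk g, fun i => ?_⟩
        rw [← hφ i]
        exact (Submodule.Quotient.eq (GZ k f (-1) n (V i))).2 (hg i) }

variable (k f) in
/-- The differential. -/
def Bd (n : ℤ) : Bn k f n ⟶ Bn k f (n + 1) :=
  mkHom (fun U => Submodule.mapQ (GZ k f (-1) n U) (GZ k f (-1) (n + 1) U) DT fun _ => gz_DT)
    fun U V hV s => by
      obtain ⟨φ, rfl⟩ := Submodule.Quotient.mk_surjective (GZ k f (-1) n U) s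
      rfl

variable (k f) in
/-- The total complex. -/
def BB : Cx k Y := CochainComplex.of (Bn k f) (Bd k f) fun n => hom_ext fun U s => by
  obtain ⟨φ, rfl⟩ := Submodule.Quotient.mk_surjective (GZ k f (-1) n U) s
  exact congrArg (GZ k f (-1) (n + 1 + 1) U).mkQ (DT_DT φ)

variable (f) in
/-- The cochain defined by a function. -/
def bm (n : ℤ) (U : Opens Y) : PP k X Y →ₗ[k] sec ((BB k f).X n) U := (GZ k f (-1) n U).mkQ

theorem bm_surj (s : sec ((BB k f).X n) U) : ∃ φ, bm f n U φ = s :=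
  Submodule.Quotient.mk_surjective (GZ k f (-1) n U) s

theorem bm_eq_zero : bm f n U φ = 0 ↔ φ ∈ GZ k f (-1) n U :=
  Submodule.Quotient.mk_eq_zero (GZ k f (-1) n U)

theorem bm_eq : bm f n U φ = bm f n U ψ ↔ φ - ψ ∈ GZ k f (-1) n U :=
  Submodule.Quotient.eq (GZ k f (-1) n U)

theorem res_bm (h : V ≤ U) (φ : PP k X Y) : res _ h (bm f n U φ) = bm f n V φ := rfl

theorem d_bm {m : ℤ} (e : n + 1 = m) (φ : PP k X Y) :
    app ((BB k f).d n m) U (bm f n U φ) = bm f m U (DT φ) := by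
  subst e
  exact congrArg (fun g => app g U (bm f n U φ)) (CochainComplex.of_d (Bn k f) (Bd k f) n)

theorem b_neg (h : n < 0) (s : sec ((BB k f).X n) U) : s = 0 := by
  obtain ⟨φ, rfl⟩ := bm_surj s
  exact bm_eq_zero.2 (gz_neg h φ)

theorem softC_BB : SoftC (BB k f) :=
  ⟨⟨0, (CochainComplex.isStrictlyGE_iff _ _).2 fun _ h => (isZero_iff_sec _).2 fun _ => b_neg h⟩,
    fun n K _ U hU s => by
      obtain ⟨φ, rfl⟩ := bm_surj s
      exact ⟨bm f n ⊤ φ, U, le_rfl, hU, rfl⟩⟩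

variable (k f) in
/-- The filtration on cochains. -/
def FS (a n : ℤ) : SubData ((BB k f).X n) where
  P U := (GZ k f a n U ⊓ (GZ k f a (n + 1) U).comap DT).map (bm f n U)
  res_mem := by
    rintro U V h _ ⟨φ, hφ, rfl⟩
    exact ⟨φ, ⟨gz_res h hφ.1, gz_res h hφ.2⟩, rfl⟩
  loc U s hs := by
    obtain ⟨φ, rfl⟩ := bm_surj s
    have key : ∀ y ∈ U, ∃ V, y ∈ V ∧ φ ∈ GZ k f a n V ∧ DT φ ∈ GZ k f a (n + 1) V := fun y hy => by
      obtain ⟨V, hV, hy, ψ, h1, h2⟩ := hs y hy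
      have h3 := bm_eq.1 h2
      refine ⟨V, hy, (Submodule.sub_mem_iff_right _ h1.1).1 (gz_bot h3),
        (Submodule.sub_mem_iff_right _ h1.2).1 (gz_bot ?_)⟩
      exact map_sub DT ψ φ ▸ gz_DT h3
    exact ⟨φ, ⟨fun y hy => let ⟨_, h, h', _⟩ := key y hy; h' y h,
      fun y hy => let ⟨_, h, _, h'⟩ := key y hy; h' y h⟩, rfl⟩

theorem mem_FS : bm f n U φ ∈ (FS k f a n).P U ↔
    φ ∈ GZ k f a n U ∧ DT φ ∈ GZ k f a (n + 1) U := by
  refine ⟨fun ⟨ψ, h1, h2⟩ => ?_, fun h => ⟨φ, h, rfl⟩⟩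
  have h3 := bm_eq.1 h2
  refine ⟨(Submodule.sub_mem_iff_right _ h1.1).1 (gz_bot h3),
    (Submodule.sub_mem_iff_right _ h1.2).1 (gz_bot ?_)⟩
  exact map_sub DT ψ φ ▸ gz_DT h3

variable (k f) in
/-- The differential of the subcomplex. -/
def Fd (a n : ℤ) : (FS k f a n).sh ⟶ (FS k f a (n + 1)).sh :=
  (FS k f a (n + 1)).lift ((FS k f a n).ι ≫ (BB k f).d n (n + 1)) fun U s => by
    obtain ⟨φ, h1, h2⟩ := (FS k f a n).ι_mem U s
    rw [app_comp, ← h2, d_bm rfl, mem_FS, DT_DT]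
    exact ⟨h1.2, Submodule.zero_mem _⟩

variable (k f) in
/-- The subcomplex `F_a`. -/
def FF (a : ℤ) : Cx k Y := CochainComplex.of (fun n => (FS k f a n).sh) (Fd k f a) fun n =>
  hom_ext fun U s => (FS k f a _).ι_injective U (by
    exact (congrArg (fun g => app g U (app (FS k f a n).ι U s)) ((BB k f).d_comp_d n _ _)).trans
      (map_zero _).symm)

variable (k f) in
/-- The inclusion of the subcomplex. -/
def Fi (a : ℤ) : FF k f a ⟶ BB k f where
  f n := (FS k f a n).ι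
  comm' i j h := by
    obtain rfl : i + 1 = j := h
    exact (congrArg (· ≫ (FS k f a (i + 1)).ι)
      (CochainComplex.of_d (fun n => (FS k f a n).sh) (Fd k f a) i)).symm

theorem Fi_inj {s t : sec ((FF k f a).X n) U}
    (h : app ((Fi k f a).f n) U s = app ((Fi k f a).f n) U t) : s = t :=
  (FS k f a n).ι_injective U h

theorem Fi_d (m : ℤ) (s : sec ((FF k f a).X n) U) :
    app ((Fi k f a).f m) U (app ((FF k f a).d n m) U s) =
      app ((BB k f).d n m) U (app ((Fi k f a).f n) U s) :=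
  (congrArg (fun g => app g U s) ((Fi k f a).comm n m)).symm

theorem Fi_rep (s : sec ((FF k f a).X n) U) : ∃ φ, bm f n U φ = app ((Fi k f a).f n) U s ∧
    φ ∈ GZ k f a n U ∧ DT φ ∈ GZ k f a (n + 1) U := by
  obtain ⟨φ, h1, h2⟩ := (FS k f a n).ι_mem U s
  exact ⟨φ, h2, h1⟩

theorem Fi_lift (h1 : φ ∈ GZ k f a n U) (h2 : DT φ ∈ GZ k f a (n + 1) U) :
    ∃ s : sec ((FF k f a).X n) U, app ((Fi k f a).f n) U s = bm f n U φ :=
  (FS k f a n).exists_ι (mem_FS.2 ⟨h1, h2⟩)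

theorem Fi_cyc {s : sec ((FF k f a).X n) U} (h : bm f n U φ = app ((Fi k f a).f n) U s) :
    app ((FF k f a).d n (n + 1)) U s = 0 ↔ DT φ ∈ GZ k f (-1) (n + 1) U := by
  rw [← bm_eq_zero, ← d_bm rfl, h, ← Fi_d]
  exact ⟨fun e => by rw [e, map_zero], fun e => Fi_inj (e.trans (map_zero _).symm)⟩

theorem softC_FF : SoftC (FF k f a) := by
  classical
  refine ⟨⟨0, (CochainComplex.isStrictlyGE_iff _ _).2 fun _ h => (isZero_iff_sec _).2 fun _ s =>
    Fi_inj ((b_neg h _).trans (map_zero _).symm)⟩, fun n K hK U hU s => ?_⟩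
  obtain ⟨φ, h1, h2, h3⟩ := Fi_rep s
  obtain ⟨C, c1, c2, c3⟩ := exists_compact_between hK U.2 hU
  let T : PP k X Y → PP k X Y := fun ψ l => if ∀ z ∈ l, z ∈ C then ψ l else 0
  have key : ∀ m ψ, ψ ∈ GZ k f a m U → T ψ ∈ GZ k f a m ⊤ := fun m ψ hψ y _ => by
    by_cases hy : y ∈ C
    · obtain ⟨V, v1, v2⟩ := hψ y (c3 hy)
      refine ⟨V, v1, fun l s a1 a2 a3 a4 => ?_⟩
      by_cases e : ∀ z ∈ l, z ∈ C
      · rw [show T ψ l = ψ l from if_pos e]
        exact v2 l s a1 a2 a3 a4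
      · rw [show T ψ l = 0 from if_neg e]
        exact Submodule.zero_mem _
    · refine ⟨⟨Cᶜ, c1.isClosed.isOpen_compl⟩, hy, fun l s _ _ a3 a4 => ?_⟩
      obtain ⟨z, hz⟩ := List.exists_mem_of_ne_nil l a3
      rw [show T ψ l = 0 from if_neg fun e => a4 z hz (e z hz)]
      exact Submodule.zero_mem _
  have e : DX (T φ) = T (DX φ) := funext fun l => by
    by_cases e : ∀ z ∈ l, z ∈ C
    · exact (congrArg (DD k) (if_pos e)).trans (if_pos e).symm
    · exact ((congrArg (DD k) (if_neg e)).trans (map_zero _)).trans (if_neg e).symm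
  obtain ⟨t, ht⟩ := Fi_lift (key n φ h2)
    ((gz_DT_iff (key n φ h2)).2 (e ▸ key _ _ ((gz_DT_iff h2).1 h3)))
  have c4 : (⟨interior C, isOpen_interior⟩ : Opens Y) ≤ U := interior_subset.trans c3
  refine ⟨t, _, c4, c2, Fi_inj ?_⟩
  rw [app_res, app_res, ht, ← h1, res_bm, res_bm, bm_eq]
  refine gz_of fun l s _ _ _ a4 => ?_
  rw [Pi.sub_apply, show T φ l = φ l from if_pos fun z hz => interior_subset (a4 z hz), sub_self]
  exact Submodule.zero_mem _

theorem exAt_FF (h : a < n) (y : Y) : ExAt (FF k f a) n y := by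
  intro U hy s hs
  obtain ⟨φ, h1, h2, -⟩ := Fi_rep s
  obtain ⟨V, v1, v2⟩ := h2 y hy
  obtain ⟨W, w1, w2⟩ := (Fi_cyc h1).1 hs y hy
  have hy' : y ∈ U ⊓ V ⊓ W := ⟨⟨hy, v1⟩, w1⟩
  replace v2 := v2.mono (inf_le_left.trans inf_le_right : U ⊓ V ⊓ W ≤ V)
  replace w2 := (w2.mono (inf_le_right : U ⊓ V ⊓ W ≤ W)).cn hy'
  rw [add_sub_cancel_right] at w2
  have h4 : DT (cn y φ) - φ ∈ GZ k f (-1) n (U ⊓ V ⊓ W) := by
    have := Submodule.sub_mem _ (Submodule.sub_mem _ (gz_cone (a := -1) y φ) (gz_of w2))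
      (gz_io (v2.one h hy'))
    rwa [show DT (cn y φ) + cn y (DT φ) + io (φ [y]) - φ - cn y (DT φ) - io (φ [y]) =
      DT (cn y φ) - φ by abel] at this
  obtain ⟨t, ht⟩ := Fi_lift (gz_of (v2.cn hy')) (by
    rw [sub_add_cancel]
    exact (Submodule.sub_mem_iff_left _ (gz_of v2)).1 (gz_bot h4))
  refine ⟨_, inf_le_left.trans inf_le_left, hy', t, Fi_inj ?_⟩
  rw [Fi_d, ht, d_bm (sub_add_cancel n 1), app_res, ← h1, res_bm, bm_eq]
  exact h4

theorem qis_Fi (h : n ≤ a) (y : Y) : SurjAt (Fi k f a) n y ∧ InjAt (Fi k f a) n y := by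
  constructor
  · intro U hy s hs
    obtain ⟨φ, rfl⟩ := bm_surj s
    rw [d_bm rfl, bm_eq_zero] at hs
    obtain ⟨t, ht⟩ := Fi_lift (gz_top h φ) (gz_bot hs)
    exact ⟨U, le_rfl, hy, t, (Fi_cyc ht.symm).2 hs, 0, by rw [map_zero, add_zero, ht, res_self]⟩
  · intro U hy s _ t ht
    obtain ⟨ψ, rfl⟩ := bm_surj t
    obtain ⟨u, hu⟩ := Fi_lift (f := f) (U := U) (a := a) (n := n - 1) (gz_top (by omega) ψ)
      (gz_top (by omega) _)
    exact ⟨U, le_rfl, hy, u, Fi_inj (by rw [Fi_d, hu, ht, res_self])⟩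

theorem trLE_bm (φ : PP k X Y) (hc : app ((BB k f).d n (n + 1)) ⊤ (bm f n ⊤ φ) = 0) :
    TrLE a (cls _ hc) ↔ ∃ χ ψ, χ ∈ GZ k f a n ⊤ ∧ DT χ ∈ GZ k f (-1) (n + 1) ⊤ ∧
      χ + DT ψ - φ ∈ GZ k f (-1) n ⊤ := by
  rw [trLE_cls_iff softC_FF.clsOK softC_BB.clsOK (Fi k f a) (fun _ => exAt_FF) fun _ => qis_Fi]
  constructor
  · rintro ⟨w, hw, b, hb⟩
    obtain ⟨χ, h1, h2, -⟩ := Fi_rep w
    obtain ⟨ψ, rfl⟩ := bm_surj b
    rw [← h1, d_bm (sub_add_cancel n 1), ← map_add, bm_eq] at hb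
    exact ⟨χ, ψ, h2, (Fi_cyc h1).1 hw, hb⟩
  · rintro ⟨χ, ψ, h1, h2, h3⟩
    obtain ⟨w, hw⟩ := Fi_lift h1 (gz_bot h2)
    exact ⟨w, (Fi_cyc hw.symm).2 h2, bm f _ ⊤ ψ, by
      rw [hw, d_bm (sub_add_cancel n 1), ← map_add, bm_eq]; exact h3⟩

variable [Nice X]

theorem d_am {m : ℤ} (e : n + 1 = m) (O : Opens X) (u : List X → k) :
    app ((AS k X).d n m) O (am n O u) = am m O (DD k u) := by
  by_cases h : 0 ≤ n
  · rw [AS_d_mk h e]
    exact am_eq.2 (zn_of fun l _ c => sub_eq_zero.2 ((dd_eq l u).symm.trans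
      (DD_long u (by omega)).symm))
  · rw [a_neg (not_le.1 h) (am n O u), map_zero]
    exact (am_eq_zero.2 (zn_of fun l _ c => DD_short u (by omega))).symm

variable (k f) in
/-- The direct image of the Alexander-Spanier complex. -/
abbrev KK : Cx k Y := (pushC k f).obj (AS k X)

variable (f) in
/-- A cochain of the direct image. -/
def km (n : ℤ) (U : Opens Y) : (List X → k) →ₗ[k] sec ((KK k f).X n) U := am n (pre f U)

omit [Nice Y] in
theorem km_surj (s : sec ((KK k f).X n) U) : ∃ u, km f n U u = s := am_surj n (pre f U) s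

omit [Nice Y] in
theorem d_km {m : ℤ} (e : n + 1 = m) (u : List X → k) :
    app ((KK k f).d n m) U (km f n U u) = km f m U (DD k u) := d_am e _ u

variable (k f) in
/-- The edge map. -/
def Ki : KK k f ⟶ BB k f where
  f n := mkHom (fun U => Submodule.mapQ (Zn k n (pre f U)) (GZ k f (-1) n U) io fun _ => gz_io)
    fun U V hV s => by
      obtain ⟨u, rfl⟩ := km_surj s
      rfl
  comm' i j h := hom_ext fun U s => by
    obtain ⟨u, rfl⟩ := km_surj s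
    rw [app_comp, app_comp, d_km h]
    exact (d_bm h (io u)).trans (congrArg _ (DT_io u))

theorem Ki_km (u : List X → k) : app ((Ki k f).f n) U (km f n U u) = bm f n U (io u) := rfl

instance : QuasiIso (Ki k f) := by
  refine (P275S.quasiIso_iff _).2 fun y n => ⟨fun U hy s hs => ?_, fun U hy s _ t ht => ?_⟩
  · obtain ⟨φ, rfl⟩ := bm_surj s
    rw [d_bm rfl, bm_eq_zero] at hs
    obtain ⟨W, w1, w2⟩ := hs y hy
    have hy' : y ∈ U ⊓ W := ⟨hy, w1⟩
    replace w2 := w2.mono (inf_le_right : U ⊓ W ≤ W)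
    refine ⟨_, inf_le_left, hy', km f n _ (φ [y]), ?_, bm f _ _ (cn y φ), ?_⟩
    · rw [d_km rfl, ← DT_one]
      by_cases h : -1 < n + 1
      · exact am_eq_zero.2 (w2.one h hy')
      · exact a_neg (by omega) _
    · rw [Ki_km, d_bm (sub_add_cancel n 1), ← map_add, res_bm, bm_eq]
      have w3 := w2.cn hy'
      rw [add_sub_cancel_right] at w3
      have := Submodule.sub_mem _ (gz_cone (a := -1) y φ) (gz_of w3)
      rwa [show DT (cn y φ) + cn y (DT φ) + io (φ [y]) - φ - cn y (DT φ) =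
        io (φ [y]) + DT (cn y φ) - φ by abel] at this
  · obtain ⟨u, rfl⟩ := km_surj s
    obtain ⟨ψ, rfl⟩ := bm_surj t
    rw [Ki_km, d_bm (sub_add_cancel n 1), bm_eq] at ht
    obtain ⟨W, w1, w2⟩ := ht y hy
    have hy' : y ∈ U ⊓ W := ⟨hy, w1⟩
    refine ⟨_, inf_le_left, hy', km f _ _ (ψ [y]), ?_⟩
    rw [d_km (sub_add_cancel n 1), ← DT_one]
    by_cases h : -1 < n
    · exact am_eq.2 ((w2.mono (inf_le_right : U ⊓ W ≤ W)).one h hy')
    · exact (a_neg (by omega) _).trans (a_neg (by omega) _).symm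

theorem trLE_km (u : List X → k) (hc : app ((KK k f).d n (n + 1)) ⊤ (km f n ⊤ u) = 0) :
    TrLE a (cls _ hc) ↔ ∃ χ ψ, χ ∈ GZ k f a n ⊤ ∧ DT χ ∈ GZ k f (-1) (n + 1) ⊤ ∧
      χ + DT ψ - io u ∈ GZ k f (-1) n ⊤ :=
  (trLE_cls_qis (Ki k f) _ hc).symm.trans (trLE_bm _ _)

/-- The Leray filtration is multiplicative. -/
theorem trLE_mul {p q : ℕ} (u v : List X → k)
    (hu : app ((KK k f).d p (p + 1)) ⊤ (km f p ⊤ u) = 0)
    (hv : app ((KK k f).d q (q + 1)) ⊤ (km f q ⊤ v) = 0) (h : (p : ℤ) + q = n)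
    (hw : app ((KK k f).d n (n + 1)) ⊤ (km f n ⊤ (cx p u v)) = 0)
    (h1 : TrLE a (cls _ hu)) (h2 : TrLE b (cls _ hv)) : TrLE (a + b) (cls _ hw) := by
  subst h
  obtain ⟨χ, ψ, a1, a2, a3⟩ := (trLE_km u hu).1 h1
  obtain ⟨χ', ψ', b1, b2, b3⟩ := (trLE_km v hv).1 h2
  have b4 : DT (io v) ∈ GZ k f (-1) (q + 1) ⊤ := by
    rw [d_km rfl] at hv
    exact DT_io (Y := Y) v ▸ gz_io (am_eq_zero.1 hv)
  obtain ⟨ξ, hξ⟩ : ∃ ξ, DT ξ - mul p (DT ψ) (io v) ∈ GZ k f (-1) (p + q) ⊤ := by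
    cases p with
    | zero => exact ⟨0, by rw [mul_zero_DT, map_zero, sub_zero]; exact Submodule.zero_mem _⟩
    | succ p =>
      refine ⟨mul p ψ (io v), ?_⟩
      rw [DT_mul, add_sub_cancel_left, show ((p + 1 : ℕ) : ℤ) + q = p + (q + 1) by omega]
      exact Submodule.smul_mem _ _ (gz_mulR ψ b4)
  have c1 : mul (p + 1) (DT χ) χ' ∈ GZ k f (-1) (p + q + 1) ⊤ := by
    rw [show (p : ℤ) + q + 1 = (p + 1 : ℕ) + q by omega]
    exact gz_mulL a2 χ'
  have c2 : mul (p + 1) (DT χ) ψ' ∈ GZ k f (-1) (p + q) ⊤ := by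
    rw [show (p : ℤ) + q = (p + 1 : ℕ) + (q - 1) by omega]
    exact gz_mulL a2 ψ'
  refine (trLE_km _ hw).2 ⟨mul p χ χ', ξ + (-1 : k) ^ p • mul p χ ψ',
    gz_mul (fun _ _ _ => by omega) a1 b1, ?_, ?_⟩
  · rw [DT_mul]
    exact Submodule.add_mem _ c1 (Submodule.smul_mem _ _ (add_assoc (p : ℤ) q 1 ▸ gz_mulR χ b2))
  · have := Submodule.add_mem _ (Submodule.add_mem _ (Submodule.add_mem _ (gz_mulR (p := p) χ b3)
      (gz_mulL (q := q) a3 (io v))) hξ) (Submodule.smul_mem _ ((-1 : k) ^ p) c2)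
    convert this using 1
    simp only [map_add, map_sub, map_smul, DT_mul, LinearMap.add_apply, LinearMap.sub_apply,
      mul_io, smul_add, smul_smul, ← pow_add, ← two_mul, pow_mul, neg_one_sq, one_pow, one_smul]
    abel

end Vale.Agent.N275
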