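import Mathlib

/-!
# P275: the definitions of the statement

A. Higgs bundles and the Hitchin map. B. The character variety and nonabelian Hodge theory.
C. Good compactifications. D. Cohomology, cup product, perverse and weight filtrations.
-/

open scoped Manifold ContDiff Topology commutatorElement Real ComplexOrder
open Filter Matrix CategoryTheory CategoryTheory.Pretriangulated Limits TopologicalSpace Abelian
  DerivedCategory MvPolynomial

noncomputable section

namespace Vale.Agent.N275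

/-! ## A. Higgs bundles

A vector bundle of rank `n` is written in a meromorphic frame: it is given by lattices
`E_x = g_x O_x^n`, `g_x = 1` for almost all `x`. Sections, metrics and Higgs fields are matrices in
this frame; only their germs on punctured neighbourhoods matter. -/

/-- a compact connected Riemann surface -/
structure Curve where
  pts : Type
  [i1 : TopologicalSpace pts]
  [i2 : T2Space pts]
  [i3 : CompactSpace pts]
  [i4 : ConnectedSpace pts]
  [i5 : ChartedSpace ℂ pts]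
  [i6 : IsManifold 𝓘(ℂ) ω pts]

attribute [instance] Curve.i1 Curve.i5

section higgs

variable {C : Curve} {n r : ℕ}

/-- punctured neighbourhoods -/
def pn {X : Type} [TopologicalSpace X] (x : X) : Filter X := 𝓝[≠] x

/-- the coordinate of `x` in the chart at `x` -/
def ctr (x : C.pts) : ℂ := chartAt ℂ x x

/-- a function read in the chart at `x` -/
def loc {V : Type} (x : C.pts) (f : C.pts → V) (z : ℂ) : V := f ((chartAt ℂ x).symm z)

/-- A `k`-differential is given by its coefficient `a y` at `y` in the chart at `y`; in the chart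
at `x` its coefficient is `jac x z ^ k * loc x a z`. -/
def jac (x : C.pts) (z : ℂ) : ℂ := deriv (fun w => loc x (chartAt ℂ (loc x id z)) w) z

/-- meromorphic at `x` -/
def MerAt (x : C.pts) (f : C.pts → ℂ) : Prop := MeromorphicAt (loc x f) (ctr x)

/-- order at `x` -/
def ord (x : C.pts) (f : C.pts → ℂ) : WithTop ℤ := meromorphicOrderAt (loc x f) (ctr x)

/-- `F` extends over `z` to a matrix `G` with entries of class `P` at `z`, and `Q (G z)` -/
def Xt (P : (ℂ → ℂ) → ℂ → Prop) (Q : Matrix (Fin n) (Fin n) ℂ → Prop)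
    (F : ℂ → Matrix (Fin n) (Fin n) ℂ) (z : ℂ) : Prop :=
  ∃ G : ℂ → Matrix (Fin n) (Fin n) ℂ, ((∀ i j, P (fun w => G w i j) z) ∧ F =ᶠ[pn z] G) ∧ Q (G z)

/-- invertible -/
def Nsg (A : Matrix (Fin n) (Fin n) ℂ) : Prop := A.det ≠ 0

variable (g : C.pts → C.pts → Matrix (Fin n) (Fin n) ℂ)

/-- the order at `x` of `s_1 ∧ ... ∧ s_r` (columns of `s`) in `Λ^r E` -/
def mord (s : C.pts → Matrix (Fin n) (Fin r) ℂ) (x : C.pts) : WithTop ℤ :=
  Finset.univ.inf fun I : Fin r → Fin n =>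
    ord x fun y => (((g x y)⁻¹ * s y).submatrix I id).det

/-- multiplication by `f` is an isomorphism `det E ≅ O(D)` -/
def DetIso (D : C.pts →₀ ℤ) (f : C.pts → ℂ) : Prop :=
  ∀ x, MerAt x f ∧ ord x (fun y => f y * (g x y).det) = ((-D x : ℤ) : WithTop ℤ)

/-- degree of a divisor -/
def deg (D : C.pts →₀ ℤ) : ℤ := D.sum fun _ k => k

/-- every `θ`-invariant subbundle of rank `0 < r < n` (spanned by meromorphic sections `s`) has
slope `< d / n` -/
def Stable (θ : C.pts → Matrix (Fin n) (Fin n) ℂ) (d : ℤ) : Prop :=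
  ∀ (r : ℕ) (s : C.pts → Matrix (Fin n) (Fin r) ℂ), 0 < r → r < n →
    (∀ x i j, MerAt x fun y => s y i j) → (∀ x, mord g s x ≠ ⊤) →
    (∃ m : C.pts → Matrix (Fin r) (Fin r) ℂ, ∀ x, ∀ᶠ y in pn x, θ y * s y = s y * m y) →
    (n : ℤ) * ∑ᶠ x, (mord g s x).untop₀ < r * d

variable (C n) in
/-- stable Higgs bundles of rank `n`, `det E ≅ O(D)`, `tr θ = 0` -/
structure Higgs (D : C.pts →₀ ℤ) where
  fr : C.pts → C.pts → Matrix (Fin n) (Fin n) ℂ
  θ : C.pts → Matrix (Fin n) (Fin n) ℂ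
  mer : ∀ x i j, MerAt x fun y => fr x y i j
  nz : ∀ x, ord x (fun y => (fr x y).det) ≠ ⊤
  fin : {x | fr x ≠ fun _ => 1}.Finite
  hol : ∀ x, Xt (AnalyticAt ℂ) (fun _ => True)
    (fun z => (loc x (fr x) z)⁻¹ * (jac x z • loc x θ z) * loc x (fr x) z) (ctr x)
  tr : ∀ x, ∀ᶠ y in pn x, (θ y).trace = 0
  det : ∃ f, DetIso fr D f
  stable : Stable fr θ (deg D)

variable {D : C.pts →₀ ℤ}

/-- isomorphic Higgs bundles -/
def Higgs.Iso (E E' : Higgs C n D) : Prop := ∃ φ : C.pts → Matrix (Fin n) (Fin n) ℂ, ∀ x,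
  Xt (AnalyticAt ℂ) Nsg (fun z => (loc x (E'.fr x) z)⁻¹ * loc x φ z * loc x (E.fr x) z) (ctr x) ∧
    ∀ᶠ y in pn x, φ y * E.θ y = E'.θ y * φ y

/-- A continuous family: local holomorphic frames `s i t` of `E t` near each point `i` of `T × C`
with continuous transition matrices `c i j` and Higgs field matrices `a i`. -/
def Fam {T : Type} [TopologicalSpace T] (E : T → Higgs C n D) : Prop :=
  ∃ (N : T × C.pts → Set (T × C.pts)) (s : T × C.pts → T → C.pts → Matrix (Fin n) (Fin n) ℂ)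
    (a : T × C.pts → T × C.pts → Matrix (Fin n) (Fin n) ℂ)
    (c : T × C.pts → T × C.pts → T × C.pts → Matrix (Fin n) (Fin n) ℂ),
    ∀ i j, N i ∈ 𝓝 i ∧ ContinuousOn (a i) (N i) ∧
    ContinuousOn (c i j) (N i ∩ N j) ∧ ∀ t x, (t, x) ∈ N i ∩ N j →
      Xt (AnalyticAt ℂ) Nsg (fun z => (loc x ((E t).fr x) z)⁻¹ * loc x (s i t) z) (ctr x) ∧
      ∀ᶠ y in pn x, s j t y = s i t y * c i j (t, y) ∧
        s i t y * a i (t, y) = (jac i.2 (chartAt ℂ i.2 y) • (E t).θ y) * s i t y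

variable (C n D) in
/-- the moduli space `X`: isomorphism classes, with the finest topology for which continuous
families give continuous maps -/
def XD : TopCat.{0} := @TopCat.of (Quot (Higgs.Iso (n := n) (D := D))) (.generateFrom
  {W | ∀ (T : Type) [TopologicalSpace T] (E : T → Higgs C n D), Fam E →
    IsOpen ((fun t => Quot.mk _ (E t)) ⁻¹' W)})

/-- the point of a Higgs bundle -/
def Higgs.pt (E : Higgs C n D) : XD C n D := Quot.mk _ E

/-- holomorphic `k`-differentials -/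
def IsDif (k : ℕ) (a : C.pts → ℂ) : Prop :=
  ∀ x, AnalyticAt ℂ (fun z => jac x z ^ k * loc x a z) (ctr x)

variable (C n) in
/-- the Hitchin base `⊕_{i=2}^n H^0(C, K^i)` -/
def Base : TopCat.{0} := TopCat.of (∀ i : Fin (n - 1), Subtype (IsDif (C := C) (i + 2)))

/-- its linear coordinates: the values of the differentials -/
def crd (a : Base C n) (q : Fin (n - 1) × C.pts) : ℂ := (a q.1).1 q.2

/-- `a` is the characteristic polynomial of `θ` -/
def Higgs.Hit (E : Higgs C n D) (a : Base C n) : Prop :=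
  ∀ x, ∀ᶠ y in pn x, ∀ i, crd a (i, y) = (E.θ y).charpoly.coeff (n - (i + 2))

/-- `Z` is Zariski closed, of dimension `≤ e` (empty if `e < 0`), for the coordinates `co` -/
def ZarLE {V σ : Type} (co : V → σ → ℂ) (e : ℤ) (Z : Set V) : Prop :=
  co ⁻¹' zeroLocus ℂ (vanishingIdeal ℂ (co '' Z)) ⊆ Z ∧
    ringKrullDim (MvPolynomial σ ℂ ⧸ vanishingIdeal ℂ (co '' Z)) < (e + 1).toNat

/-! ## B. The character variety, nonabelian Hodge theory -/

/-- `∏ [A_j, B_j]`, `A_j = ρ (j, false)`, `B_j = ρ (j, true)` -/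
def cw {G : Type} [Group G] {q : ℕ} (ρ : Fin q × Bool → G) : G :=
  (List.ofFn fun j => ⁅ρ (j, false), ρ (j, true)⁆).prod

/-- the space of orbits under simultaneous conjugation -/
def Orb {G S : Type} [Group G] [TopologicalSpace G] (R : Set (S → G)) : TopCat.{0} :=
  TopCat.of (Quot fun ρ ρ' : R => ∃ P, ∀ s, ρ'.1 s = P * ρ.1 s * P⁻¹)

/-- the tuples with `∏ [A_j, B_j] = e^{2 π i d / n}` -/
def Rp (q n : ℕ) (d : ℤ) : Set (Fin q × Bool → SpecialLinearGroup (Fin n) ℂ) :=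
  {ρ | (cw ρ).1 = Complex.exp (2 * π * Complex.I * d / n) • 1}

/-- `X^B` (all orbits are closed for `d` prime to `n`) -/
def XB (q n : ℕ) (d : ℤ) : TopCat.{0} := Orb (Rp q n d)

variable {q : ℕ} {d : ℤ}

/-- the point of a tuple -/
def pt (ρ : Rp q n d) : XB q n d := Quot.mk _ ρ

/-- the matrices of a tuple -/
def mx (ρ : Rp q n d) (s : Fin q × Bool) : Matrix (Fin n) (Fin n) ℂ := (ρ.1 s).1

/-- regular functions on `X^B` -/
def IsReg (t : XB q n d → ℂ) : Prop := ∃ P : MvPolynomial ((Fin q × Bool) × Fin n × Fin n) ℂ,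
  ∀ ρ, t (pt ρ) = eval (fun i => mx ρ i.1 i.2.1 i.2.2) P

/-- `∂F/∂z` for `s = -i`, `∂F/∂z̄` for `s = i` -/
def dz (s : ℂ) (F : ℂ → Matrix (Fin n) (Fin n) ℂ) (z : ℂ) : Matrix (Fin n) (Fin n) ℂ :=
  fun i j => (fderiv ℝ (F · i j) z 1 + s * fderiv ℝ (F · i j) z Complex.I) / 2

/-- In a chart: `F` is a smooth frame, parallel up to a scalar form for `D_H + θ + θ^*`. -/
def Flat (g θ H F : ℂ → Matrix (Fin n) (Fin n) ℂ) (z₀ : ℂ) : Prop :=
  Xt (ContDiffAt ℝ ∞) Nsg (fun z => (g z)⁻¹ * F z) z₀ ∧ ∃ a b : ℂ → ℂ, ∀ᶠ z in pn z₀,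
    dz (-Complex.I) F z + ((H z)⁻¹ * dz (-Complex.I) H z + θ z) * F z = a z • F z ∧
    dz Complex.I F z + (H z)⁻¹ * (θ z)ᴴ * H z * F z = b z • F z

/-- `l` is a smooth nowhere vanishing section of `O(D)` over `C ∖ {p}` -/
def IsTriv (D : C.pts →₀ ℤ) (p : C.pts) (l : C.pts → ℂ) : Prop := ∀ x ≠ p, ∃ u : ℂ → ℂ,
  ContDiffAt ℝ ∞ u (ctr x) ∧ u (ctr x) ≠ 0 ∧
    ∀ᶠ z in pn (ctr x), (z - ctr x) ^ D x * loc x l z = u z

section paths

variable {X : Type} [TopologicalSpace X] (ι : X → C.pts) {x₀ : X}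

/-- `γ` goes to a small coordinate circle round `p`, once positively round it, and back -/
def IsMer (p : C.pts) (γ : FundamentalGroup X x₀) : Prop :=
  ∃ (ε : ℝ) (y : X) (σ : Path x₀ y) (c : Path y y), 0 < ε ∧
    Metric.closedBall (ctr p) ε ⊆ (chartAt ℂ p).target ∧
    (∀ t, ι (c t) = loc p id (circleMap (ctr p) ε (2 * π * t))) ∧
    γ = FundamentalGroup.fromPath (Path.Homotopic.Quotient.mk (σ.trans (c.trans σ.symm)))

/-- A multivalued frame: germs `F x γ` at `ι x` with the property `P`, for the classes `γ` of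
paths from `x₀` to `x`, compatible with continuation; monodromy `A s` along `a s`. -/
def Frame {S : Type} (P : C.pts → (C.pts → Matrix (Fin n) (Fin n) ℂ) → Prop)
    (a : S → FundamentalGroup X x₀) (A : S → Matrix (Fin n) (Fin n) ℂ) : Prop :=
  ∃ F : ∀ x : X, Path.Homotopic.Quotient x₀ x → C.pts → Matrix (Fin n) (Fin n) ℂ,
    (∀ x γ, P (ι x) (F x γ)) ∧
    (∀ x γ, ∃ V ∈ 𝓝 x, ∀ (y : X) (δ : Path x y), (∀ t, δ t ∈ V) →
      F y (γ.trans (Path.Homotopic.Quotient.mk δ)) =ᶠ[pn (ι y)] F x γ) ∧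
    ∀ s, ∀ᶠ y in pn (ι x₀), F x₀ (a s).toPath y = F x₀ (Path.Homotopic.Quotient.refl x₀) y * A s

end paths

/-- the punctured curve -/
def Pc (p : C.pts) : TopCat.{0} := TopCat.of ↥({p}ᶜ : Set C.pts)

/-- its inclusion in the curve -/
def inc (p : C.pts) : Pc p → C.pts := Subtype.val

/-- free generators -/
def Free {S G : Type} [Group G] (a : S → G) : Prop := Function.Bijective (FreeGroup.lift a)

variable {p : C.pts} {x₀ : Pc p} (a : Fin q × Bool → FundamentalGroup (Pc p) x₀)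

/-- free generators `a_j, b_j` of `π_1(C ∖ {p})` with `∏ [a_j, b_j]` a loop round `p`; they exist
exactly when `q` is the genus -/
def Mark : Prop := Free a ∧ IsMer (inc p) p (cw a)

/-- Nonabelian Hodge: `E` has a metric `H` solving the equation of Hitchin, and `ρ` is the
monodromy of the flat `SL_n` connection on `E ⊗ L^{-1/n}` over `C ∖ {p}` (root fixed by `l`). -/
def NAH (l : C.pts → ℂ) (E : Higgs C n D) (ρ : Rp q n d) : Prop :=
  ∃ (H : C.pts → Matrix (Fin n) (Fin n) ℂ) (f : C.pts → ℂ),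
    (∀ x, Xt (ContDiffAt ℝ ∞) PosDef
      (fun z => (loc x (E.fr x) z)ᴴ * loc x H z * loc x (E.fr x) z) (ctr x)) ∧
    DetIso E.fr D f ∧ Frame (inc p) (fun x F =>
      Flat (loc x (E.fr x)) (fun z => jac x z • loc x E.θ z) (loc x H) (loc x F) (ctr x) ∧
      ∀ᶠ y in pn x, f y * (F y).det = l y) a (mx ρ)

end higgs

/-! ## C. Smooth projective compactifications with normal crossings boundary -/

section mf

variable (E : Type) [NormedAddCommGroup E] [NormedSpace ℂ E] [NormedSpace ℝ E]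
  {Y : Type} [TopologicalSpace Y] [ChartedSpace E Y]

variable {E} in
/-- `P` holds in every chart round `y` -/
def InCh (y : Y) (P : (E → Y) → E → Prop) : Prop :=
  ∀ e : OpenPartialHomeomorph Y E, e ∈ atlas E Y ∧ y ∈ e.source → P e.symm (e y)

/-- holomorphic at `y` -/
def Hol (u : Y → ℂ) (y : Y) : Prop := InCh y fun (s : E → Y) z => AnalyticAt ℂ (fun w => u (s w)) z

/-- holomorphic at `y` with independent differentials -/
def Ind {α : Type} (u : α → Y → ℂ) (y : Y) : Prop := (∀ i, Hol E (u i) y) ∧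
  InCh y fun (s : E → Y) z => LinearIndependent ℂ fun i => fderiv ℂ (fun w => u i (s w)) z

/-- `ζ` is a local equation at `y` of the smooth hypersurface `G` -/
def LEq (G : Set Y) (y : Y) (ζ : Y → ℂ) : Prop :=
  (∀ᶠ y' in 𝓝 y, (ζ y' = 0 ↔ y' ∈ G)) ∧ InCh y fun (s : E → Y) z =>
    AnalyticAt ℂ (fun w => ζ (s w)) z ∧ (ζ y = 0 → fderiv ℂ (fun w => ζ (s w)) z ≠ 0)

/-- simple normal crossings -/
def Snc {κ : Type} (G : κ → Set Y) : Prop :=
  ∀ y, ∃ ζ : κ → Y → ℂ, (∀ l, LEq E (G l) y (ζ l)) ∧ Ind E (fun l : {l // y ∈ G l} => ζ l) y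

variable {E} in
/-- smooth and strictly plurisubharmonic at `z` -/
def Psh (ψ : E → ℝ) (z : E) : Prop := ContDiffAt ℝ ∞ ψ z ∧ ∀ v : E, v ≠ 0 →
  0 < fderiv ℝ (fun w => fderiv ℝ ψ w v) z v +
    fderiv ℝ (fun w => fderiv ℝ ψ w (Complex.I • v)) z (Complex.I • v)

variable (Y) in
/-- a positive line bundle (cocycle `c`, weights `ψ`): projective, if compact -/
def Prj : Prop := ∃ (ι : Type) (U : ι → Set Y) (c : ι → ι → Y → ℂ) (ψ : ι → Y → ℝ),
  (∀ i, IsOpen (U i)) ∧ (∀ y, ∃ i, y ∈ U i) ∧ ∀ i y, y ∈ U i →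
    (InCh y fun (s : E → Y) z => Psh (fun w => ψ i (s w)) z) ∧ ∀ j, y ∈ U j →
      Hol E (c i j) y ∧ c i j y ≠ 0 ∧ ψ i y = ψ j y + Real.log (‖c i j y‖ ^ 2) ∧
      ∀ k, y ∈ U k → c i j y * c j k y = c i k y

variable {X : Type} (f : X → Y)

/-- `t` is meromorphic on `Y` with poles along the `G l` only -/
def Mer {r : ℕ} (G : Fin r → Set Y) (t : X → ℂ) : Prop :=
  ∀ (y : Y) (ζ : Fin r → Y → ℂ), (∀ l, LEq E (G l) y (ζ l)) → ∃ (k : ℕ) (u : Y → ℂ), Hol E u y ∧
    ∀ᶠ y' in 𝓝 y, ∀ x, f x = y' → u y' = t x * (∏ l, ζ l y') ^ k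

/-- `f` is a dense open embedding in a projective manifold, `Y ∖ f X` has simple normal crossings, the regular functions
are meromorphic on `Y` and give local coordinates on `X` -/
def GoodAt [TopologicalSpace X] (N : ℕ) (Reg : (X → ℂ) → Prop) : Prop :=
  T2Space Y ∧ CompactSpace Y ∧ Topology.IsOpenEmbedding f ∧ DenseRange f ∧ IsManifold 𝓘(ℂ, E) ω Y ∧ Prj E Y ∧ ∃ (r : ℕ) (G : Fin r → Set Y), Snc E G ∧
    Set.range f = {y | ∀ l, y ∉ G l} ∧ (∀ t, Reg t → Mer E f G t) ∧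
    ∀ x, ∃ (t : Fin N → X → ℂ) (u : Fin N → Y → ℂ),
      (∀ i, Reg (t i) ∧ ∀ x', u i (f x') = t i x') ∧ Ind E u (f x)

end mf

/-- `R = (n² - 1)(g - 1)` -/
def dimR (q n : ℕ) : ℕ := (n ^ 2 - 1) * (q - 1)

/-- the map of a morphism of spaces -/
def fn {X Y : TopCat.{0}} (f : X ⟶ Y) : X → Y := f.hom.toFun

/-- a good compactification of a smooth affine variety of dimension `N` -/
def Good {X Y : TopCat.{0}} (N : ℕ) (Reg : (X → ℂ) → Prop) (f : X ⟶ Y) : Prop :=
  ∃ _ : ChartedSpace (Fin N → ℂ) Y, GoodAt (Fin N → ℂ) (fn f) N Reg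

/-! ## D. Cohomology and the filtrations -/

section abelian

variable {A B : Type 1} [Category.{0} A] [Abelian A] [Category.{0} B] [Abelian B]

/-- the complex `G[-m]` -/
def sg (G : B) (m : ℤ) : CochainComplex B ℤ := (CochainComplex.singleFunctor B m).obj G

/-- `F` applied to an injective resolution -/
def RF (F : A ⥤ B) [F.Additive] {P : A} (R : InjectiveResolution P) : CochainComplex B ℤ :=
  (F.mapHomologicalComplex _).obj R.cochainComplex

/-- cocycles -/
def Cyc {P : A} (K : CochainComplex A ℕ) (m : ℕ) (s : P ⟶ K.X m) : Prop := s ≫ K.d m (m + 1) = 0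

/-- the cocycle `t` represents the class `a` -/
def Rep [HasExt.{1} A] {P : A} (R : InjectiveResolution P) {m : ℕ} (a : Ext P P m)
    (t : P ⟶ R.cochainComplex.X m) : Prop :=
  ∃ s, ∃ hs : Cyc R.cocomplex m s,
    a = R.extMk s (m + 1) rfl hs ∧ t = s ≫ (R.cochainComplexXIso m m rfl).inv

variable [HasDerivedCategory.{1} B]

/-- a complex in the derived category -/
def dc (K : CochainComplex B ℤ) : DerivedCategory B := Q.obj K

/-- `L ∈ pD^{≤ c}`: `dim supp H^i(L) ≤ c - i`; `S e G` says `dim supp G ≤ e` -/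
def PLE (S : ℤ → B → Prop) (c : ℤ) (L : DerivedCategory B) : Prop :=
  (∃ b, L.IsGE b) ∧ ∀ i : ℤ, S (c - i) ((homologyFunctor B i).obj L)

/-- `L ∈ pD^{> c}`: `Hom(G[-i], L) = 0` if `dim supp G ≤ c - i` -/
def PGT (S : ℤ → B → Prop) (c : ℤ) (L : DerivedCategory B) : Prop :=
  ∀ (i : ℤ) (G : B), S (c - i) G → ∀ φ : dc (sg G i) ⟶ L, φ = 0

/-- `u` is the perverse truncation `pτ_{≤ c} K → K` -/
def IsTrunc (S : ℤ → B → Prop) (c : ℤ) {L K : DerivedCategory B} (u : L ⟶ K) : Prop :=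
  ∃ (M : DerivedCategory B) (v : K ⟶ M) (w : M ⟶ L⟦(1 : ℤ)⟧),
    Triangle.mk u v w ∈ distTriang (DerivedCategory B) ∧ PLE S c L ∧ PGT S c M

/-- the class in `Hom(P[-m], K)` of the cocycle `s` comes from `Hom(P[-m], L)` -/
def Thru {P : B} {K : CochainComplex B ℤ} {L : DerivedCategory B} (u : L ⟶ dc K) {m : ℤ}
    (s : P ⟶ K.X m) : Prop :=
  ∃ (c : sg P m ⟶ K) (φ : dc (sg P m) ⟶ L),
    c.f m = (HomologicalComplex.singleObjXSelf _ m P).hom ≫ s ∧ φ ≫ u = Q.map c

variable [HasExt.{1} A] (F : A ⥤ B) [F.Additive] {P : A} {P' : B} (η : P' ⟶ F.obj P)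
  (R : InjectiveResolution P)

/-- the image of `Hom(P'[-m], L)` in `Hom(P'[-m], RF P) = Ext^m(P, P)` -/
def Img {L : DerivedCategory B} (u : L ⟶ dc (RF F R)) (m : ℕ) : Set (Ext P P m) :=
  {a | ∃ t, Rep R a t ∧ Thru u (η ≫ F.map t)}

/-- `pτ_{≤ c} RF P` exists, and `T` is the image for every choice of it -/
def IsPerv (S : ℤ → B → Prop) (c : ℤ) (T : ∀ m, Set (Ext P P m)) : Prop :=
  (∃ L u, IsTrunc S c (L := L) (K := dc (RF F R)) u) ∧
    ∀ L (u : L ⟶ dc (RF F R)), IsTrunc S c u → T = Img F η R u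

/-- the image for the standard truncation `τ_{≤ c} RF P` -/
def Ler (c : ℤ) (m : ℕ) : Set (Ext P P m) :=
  Img F η R ((TStructure.t.truncLEι c).app (dc (RF F R))) m

end abelian

variable (k : Type) [Field k]

/-- sheaves of `k`-vector spaces -/
def Sh (X : TopCat.{0}) : Type 1 := TopCat.Sheaf (ModuleCat.{0} k) X

variable {X Y : TopCat.{0}}

instance : Category.{0} (Sh k X) := (inferInstance : Category (TopCat.Sheaf (ModuleCat.{0} k) X))

instance : Abelian (Sh k X) := (inferInstance : Abelian (TopCat.Sheaf (ModuleCat.{0} k) X))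

instance : EnoughInjectives (Sh k X) :=
  (inferInstance : EnoughInjectives (TopCat.Sheaf (ModuleCat.{0} k) X))

instance : HasDerivedCategory.{1} (Sh k X) := HasDerivedCategory.standard _

instance : HasExt.{1} (Sh k X) := hasExt_of_hasDerivedCategory _

/-- the constant sheaf -/
def cst (X : TopCat.{0}) : Sh k X :=
  (constantSheaf (Opens.grothendieckTopology X) (ModuleCat.{0} k)).obj (ModuleCat.of k k)

/-- an injective resolution of it -/
def rsl (X : TopCat.{0}) : InjectiveResolution (cst k X) := injectiveResolution _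

/-- direct image -/
def push (f : X ⟶ Y) : Sh k X ⥤ Sh k Y := TopCat.Sheaf.pushforward (ModuleCat.{0} k) f

instance (f : X ⟶ Y) : (push k f).Additive where

/-- global sections -/
def Γ (G : Sh k X) : ModuleCat.{0} k := G.1.obj (Opposite.op ⊤)

/-- `Hom(k_X, G) = Hom(k, Γ G)` -/
def adj (G : Sh k X) : (cst k X ⟶ G) ≃ (ModuleCat.of k k ⟶ Γ k G) :=
  (constantSheafAdj (Opens.grothendieckTopology X) (ModuleCat.{0} k) isTerminalTop).homEquiv _ G

/-- `k_Y → f_* k_X`, `1 ↦ 1` -/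
def unit (f : X ⟶ Y) : cst k Y ⟶ (push k f).obj (cst k X) :=
  (adj k ((push k f).obj (cst k X))).invFun ((adj k (cst k X)).toFun (𝟙 _))

/-- `H^m(X, k) = Ext^m(k_X, k_X)` -/
def H (X : TopCat.{0}) (m : ℕ) : Type 1 := Ext (cst k X) (cst k X) m

instance (m : ℕ) : AddCommGroup (H k X m) := Ext.instAddCommGroup

/-- Deligne's `W_w H^m(X) = im H^m(Y, τ_{≤ w - m} Rf_* k)` for a good compactification `f` -/
def Wt (f : X ⟶ Y) (w : ℤ) (m : ℕ) : Set (H k X m) :=
  Ler (push k f) (unit k f) (rsl k X) (w - m) m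

/-- the support lies in a set of the class `Z e` -/
def Supp (Z : ℤ → Set X → Prop) (e : ℤ) (G : Sh k X) : Prop :=
  ∃ T, Z e T ∧ ∀ x ∉ T, IsZero (TopCat.Presheaf.stalk G.1 x)

/-- `T m = im (H^m(Y, pτ_{≤ c} Rf_* k) → H^m(X, k))` -/
def IsP (Z : ℤ → Set Y → Prop) (f : X ⟶ Y) (c : ℤ) (T : ∀ m, Set (H k X m)) : Prop :=
  IsPerv (push k f) (unit k f) (rsl k X) (Supp k Z) c T

variable {k}

/-- cup product (Yoneda product) -/
def cup {m m' : ℕ} (a : H k X m) (b : H k X m') : H k X (m + m') := a.comp b rfl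

/-- powers of a class of degree two -/
def pw (a : H k X 2) (i : ℕ) : H k X (2 * i) :=
  Nat.rec (motive := fun i => H k X (2 * i)) (Ext.mk₀ (𝟙 _)) (fun _ b => cup b a) i

/-- Curious hard Lefschetz: `a` raises `W` by four, and the product with `a^i` is injective and
surjective from `Gr_{c - 2i} H^m` to `Gr_{c + 2i} H^{m + 2i}`. -/
def CHL (W : ℤ → ∀ m, Set (H k X m)) (c : ℤ) (a : H k X 2) : Prop :=
  (∀ w m, ∀ v ∈ W w m, cup v a ∈ W (w + 4) (m + 2)) ∧ ∀ i m : ℕ,
    (∀ v ∈ W (c - 2 * i) m, cup v (pw a i) ∈ W (c + 2 * i - 1) _ → v ∈ W (c - 2 * i - 1) m) ∧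
    ∀ u ∈ W (c + 2 * i) (m + 2 * i), ∃ v ∈ W (c - 2 * i) m,
      u - cup v (pw a i) ∈ W (c + 2 * i - 1) _

end Vale.Agent.N275
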