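import Vale.Agent.N275.Defs
import Vale.Agent.N275.Dbl
import Vale.Agent.P275S.Real

/-! `Ext` classes, Alexander-Spanier cocycles, cup product and the Leray filtration. -/

open CategoryTheory Limits TopologicalSpace Abelian DerivedCategory CochainComplex
  CochainComplex.HomComplex

noncomputable section

set_option backward.isDefEq.respectTransparency false

namespace Vale.Agent.N275

section abelian

variable {A : Type 1} [Category.{0} A] [Abelian A]

theorem sh_comp {F G K : CochainComplex A ℤ} {a b c : ℤ} (x : Cocycle F G a) (y : Cocycle G K b)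
    (h : a + b = c) (h' : b + a = c) : Cocycle.equivHomShift.symm (P275S.zcomp x y h) =
      ShiftedHom.comp (Cocycle.equivHomShift.symm x) (Cocycle.equivHomShift.symm y) h' := by
  ext p
  simp only [ShiftedHom.comp, Cocycle.equivHomShift_symm_apply, HomologicalComplex.comp_f,
    Cocycle.homOf_f, Cocycle.rightShift_coe, shiftFunctor_map_f', shiftFunctorAdd'_inv_app_f',
    P275S.zcomp_coe]
  rw [Cochain.rightShift_v _ _ _ _ p p (add_zero p) (p + c) rfl,
    Cochain.rightShift_v _ _ _ _ p p (add_zero p) (p + a) rfl,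
    Cochain.rightShift_v _ _ _ _ (p + a) (p + a) (add_zero _) (p + c) (by omega),
    Cochain.comp_v _ _ h p (p + a) (p + c) rfl (by omega)]
  simp [shiftFunctorObjXIso]

theorem conj_comp {D : Type*} [Category D] [HasShift D ℤ] {S T : D} (a : S ⟶ T) (r : T ⟶ S)
    (e : r ≫ a = 𝟙 _) {i j c : ℤ} (x : ShiftedHom T T i) (y : ShiftedHom T T j) (h : j + i = c) :
    ((ShiftedHom.mk₀ (0 : ℤ) rfl a).comp (x.comp (ShiftedHom.mk₀ (0 : ℤ) rfl r) (zero_add _))
      (add_zero _)).comp ((ShiftedHom.mk₀ (0 : ℤ) rfl a).comp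
        (y.comp (ShiftedHom.mk₀ (0 : ℤ) rfl r) (zero_add _)) (add_zero _)) h =
    (ShiftedHom.mk₀ (0 : ℤ) rfl a).comp ((x.comp y h).comp (ShiftedHom.mk₀ (0 : ℤ) rfl r)
      (zero_add _)) (add_zero _) := by
  rw [ShiftedHom.comp_assoc _ _ _ _ h (by omega),
    ShiftedHom.comp_assoc x _ _ _ (add_zero _) (by omega),
    ← ShiftedHom.comp_assoc (ShiftedHom.mk₀ (0 : ℤ) rfl r) _ _ (add_zero _) (add_zero _) (by omega),
    ShiftedHom.mk₀_comp_mk₀ _ _ _ rfl rfl, e, ShiftedHom.mk₀_id_comp,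
    ShiftedHom.comp_assoc x y _ h (zero_add _) (by omega)]

theorem mk_f {P P' : A} (a : P ⟶ P') {m : ℤ} {K : CochainComplex A ℤ} (φ : P' ⟶ K.X m) (h) :
    ((HomologicalComplex.single A (.up ℤ) m).map a ≫ HomologicalComplex.mkHomFromSingle φ h).f m =
      (HomologicalComplex.singleObjXSelf (.up ℤ) m P).hom ≫ a ≫ φ := by
  simp [HomologicalComplex.single_map_f_self, HomologicalComplex.mkHomFromSingle_f]

variable [HasExt.{1} A] {P : A} (R : InjectiveResolution P) {m : ℕ}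

/-- The class of a cocycle. -/
def em (t : P ⟶ R.cochainComplex.X m) (ht : t ≫ R.cochainComplex.d m (m + 1) = 0) : Ext P P m :=
  R.extEquivCohomologyClass.symm (.mk (Cocycle.fromSingleMk t (zero_add _) (m + 1) rfl ht))

theorem rep_iff (a : Ext P P m) (t : P ⟶ R.cochainComplex.X m) :
    Rep R a t ↔ ∃ ht, a = em R t ht := by
  constructor
  · rintro ⟨s, hs, rfl, rfl⟩
    exact ⟨_, rfl⟩
  · rintro ⟨ht, rfl⟩
    obtain ⟨s, rfl⟩ : ∃ s, t = s ≫ (R.cochainComplexXIso m m rfl).inv :=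
      ⟨t ≫ (R.cochainComplexXIso m m rfl).hom, by simp⟩
    refine ⟨s, ?_, rfl, rfl⟩
    rw [R.cochainComplex_d m (m + 1) m (m + 1) rfl rfl] at ht
    exact (cancel_mono (R.cochainComplexXIso (m + 1) (m + 1) rfl).inv).1 (by simpa using ht)

theorem em_surj (a : Ext P P m) : ∃ t ht, em R t ht = a := by
  obtain ⟨s, hs, rfl⟩ := R.extMk_surjective a (m + 1) rfl
  exact ⟨_, _, rfl⟩

theorem em_sub (t t' : P ⟶ R.cochainComplex.X m) (ht ht') (h) :
    em R (t - t') h = em R t ht - em R t' ht' := by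
  rw [em, Cocycle.fromSingleMk_sub _ _ _ _ _ ht ht', CohomologyClass.mk_sub,
    R.extEquivCohomologyClass_symm_sub]
  rfl

theorem em_eq (t t' : P ⟶ R.cochainComplex.X m) (ht ht') : em R t ht = em R t' ht' ↔
    ∃ b : P ⟶ R.cochainComplex.X (m - 1), b ≫ R.cochainComplex.d (m - 1) m = t - t' := by
  rw [← sub_eq_zero, ← em_sub R t t' ht ht' (by simp [ht, ht']), em, Equiv.symm_apply_eq,
    R.extEquivCohomologyClass_zero, CohomologyClass.mk_eq_zero_iff,
    Cocycle.fromSingleMk_mem_coboundaries_iff _ _ _ _ _ (m - 1) (by simp)]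

variable [HasDerivedCategory.{1} A] {K : CochainComplex A ℤ} 
  (ε : (CochainComplex.singleFunctor A 0).obj P ⟶ K)
  (ρ : K ⟶ R.cochainComplex)

/-- The class of an operator on a resolution. -/
def eo (z : Cocycle K K m) : Ext P P m :=
  R.extEquivCohomologyClass.symm (.mk ((z.precomp ε).postcomp ρ))

omit [HasDerivedCategory.{1} A] in
theorem eo_eq (z : Cocycle K K m) (t : P ⟶ R.cochainComplex.X m) (ht)
    (h : t = (HomologicalComplex.singleObjXSelf _ 0 P).inv ≫ ε.f 0 ≫ z.1.v 0 m (zero_add _) ≫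
      ρ.f m) : eo R ε ρ z = em R t ht := by
  subst h
  refine congrArg (fun w => R.extEquivCohomologyClass.symm (.mk w))
    (Cocycle.ext ((Cochain.fromSingleEquiv (zero_add _)).injective ?_))
  rw [Cocycle.fromSingleMk_coe, Cochain.fromSingleEquiv_fromSingleMk]
  simp [Cochain.fromSingleEquiv]

theorem eo_hom (z : Cocycle K K m) : (eo R ε ρ z).hom =
    (ShiftedHom.mk₀ (0 : ℤ) rfl (Q.map ε)).comp
      ((ShiftedHom.map (Cocycle.equivHomShift.symm z) Q).comp
        (ShiftedHom.mk₀ (0 : ℤ) rfl (Q.map ρ ≫ inv (Q.map R.ι'))) (zero_add _)) (add_zero _) := by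
  rw [eo, R.extEquivCohomologyClass_symm_mk_hom, Cocycle.equivHomShift_symm_postcomp,
    Cocycle.equivHomShift_symm_precomp, ← ShiftedHom.comp_mk₀ _ 0 rfl,
    ← ShiftedHom.mk₀_comp 0 rfl, ShiftedHom.map_comp, ShiftedHom.map_comp, ShiftedHom.map_mk₀,
    ShiftedHom.map_mk₀, ShiftedHom.comp_assoc _ _ _ _ (zero_add _) (by simp),
    ShiftedHom.comp_assoc _ _ _ _ (zero_add _) (by simp), ShiftedHom.mk₀_comp_mk₀ _ _ _ rfl rfl]
  simp only [singleFunctorIsoCompQ, Iso.refl_hom, Iso.refl_inv, NatTrans.id_app]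
  exact (ShiftedHom.mk₀_id_comp _ _ _).trans (by erw [Category.comp_id])

theorem eo_comp [QuasiIso ε] (h : Q.map ε ≫ Q.map ρ = Q.map R.ι') {m' : ℕ} (z : Cocycle K K m)
    (z' : Cocycle K K m') : (eo R ε ρ z).comp (eo R ε ρ z') rfl =
      eo R ε ρ (m := m + m') (P275S.zcomp z z' (by simp)) := by
  have e : (Q.map ρ ≫ inv (Q.map R.ι')) ≫ Q.map ε = 𝟙 _ := by
    rw [← cancel_epi (Q.map ε), ← Category.assoc, ← Category.assoc, h]
    simp
  ext
  rw [Ext.comp_hom, eo_hom, eo_hom, eo_hom, sh_comp _ _ _ (by simp; omega), ShiftedHom.map_comp]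
  exact conj_comp _ _ e _ _ _

theorem eo_one (h : Q.map ε ≫ Q.map ρ = Q.map R.ι') :
    eo R ε ρ (m := 0) (Cocycle.ofHom (𝟙 K)) = Ext.mk₀ (𝟙 P) := by
  have e : Cocycle.equivHomShift.symm (Cocycle.ofHom (𝟙 K)) = ShiftedHom.mk₀ (0 : ℤ) rfl (𝟙 K) := by
    ext p
    simp [ShiftedHom.mk₀, Cocycle.equivHomShift_symm_apply,
      Cochain.rightShift_v _ _ _ _ p p (add_zero p) p (add_zero p),
      CategoryTheory.shiftFunctorZero', shiftFunctorZero_inv_app_f, shiftFunctorObjXIso]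
    rfl
  ext
  rw [eo_hom, Ext.mk₀_hom]
  erw [e, ShiftedHom.map_mk₀, ShiftedHom.mk₀_comp_mk₀ _ _ _ rfl rfl,
    ShiftedHom.mk₀_comp_mk₀ _ _ _ rfl rfl]
  rw [Q.map_id, Category.id_comp, ← Category.assoc, h, IsIso.hom_inv_id]
  exact congrArg _ ((DerivedCategory.singleFunctor A 0).map_id P).symm

end abelian

open P275S hiding Sh cst push H unit Thru

variable {k : Type} [Field k] {X Y : TopCat.{0}}

theorem adj_comp {G G' : Sh k X} (ψ : cst k X ⟶ G) (χ : G ⟶ G') :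
    adj k G' (ψ ≫ χ) = adj k G ψ ≫ χ.1.app (Opposite.op ⊤) :=
  (constantSheafAdj (Opens.grothendieckTopology X) (ModuleCat.{0} k)
    isTerminalTop).homEquiv_naturality_right ψ χ

variable (k X) in
/-- The section `1` of the constant sheaf. -/
def one : sec (k := k) (cst k X) ⊤ := (adj k (cst k X) (𝟙 _)).hom (1 : k)

/-- The value at `1`. -/
def val {G : Sh k X} (ψ : cst k X ⟶ G) : sec (k := k) G ⊤ := app (k := k) ψ ⊤ (one k X)

theorem adj_one {G : Sh k X} (ψ : cst k X ⟶ G) : (adj k G ψ).hom (1 : k) = val ψ := by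
  have := adj_comp (𝟙 _) ψ
  rw [Category.id_comp] at this
  rw [this]
  rfl

theorem val_ext {G : Sh k X} {ψ ψ' : cst k X ⟶ G} (h : val ψ = val ψ') : ψ = ψ' := by
  refine (adj k G).injective (ModuleCat.hom_ext (LinearMap.ext_ring ?_))
  exact (adj_one ψ).trans (h.trans (adj_one ψ').symm)

theorem val_surj {G : Sh k X} (s : sec (k := k) G ⊤) : ∃ ψ : cst k X ⟶ G, val ψ = s :=
  ⟨(adj k G).symm (ModuleCat.ofHom (LinearMap.toSpanSingleton k _ s)), (adj_one _).symm.trans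
    ((congrArg (fun g => ModuleCat.Hom.hom g (1 : k)) ((adj k G).apply_symm_apply _)).trans
      (one_smul k s))⟩

theorem val_comp {G G' : Sh k X} (ψ : cst k X ⟶ G) (χ : G ⟶ G') :
    val (ψ ≫ χ) = app (k := k) χ ⊤ (val ψ) := rfl

theorem val_unit (f : X ⟶ Y) {G : Sh k X} (ψ : cst k X ⟶ G) :
    val (unit k f ≫ (push k f).map ψ) = val ψ := by
  have : val (unit k f) = one k X := (adj_one _).symm.trans
    (congrArg (fun g => ModuleCat.Hom.hom g (1 : k)) ((adj k _).right_inv _))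
  exact congrArg (app (k := k) ((push k f).map ψ) ⊤) this

variable (k X) in
theorem exists_al : ∃ a : cst k X ≅ P275S.cst k X, val a.hom = cstOne k ⊤ := by
  obtain ⟨ψ, hψ⟩ := val_surj (G := P275S.cst k X) (cstOne k ⊤)
  refine ⟨⟨ψ, secHom (k := k) (F := cst k X) (one k X), val_ext ?_, cst_hom_ext ?_⟩, hψ⟩
  · exact (congrArg _ hψ).trans (secHom_one _)
  · exact (congrArg (app (k := k) ψ ⊤) (secHom_one _)).trans hψ

theorem clsC_f {K : Cx k X} {m : ℤ} (a : cst k X ⟶ P275S.cst k X) (ha : val a = cstOne k ⊤)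
    (s : cst k X ⟶ K.X m) (hs) :
    ((CochainComplex.singleFunctor (Sh k X) m).map a ≫ clsC (F := K) (val s) hs).f m =
      (HomologicalComplex.singleObjXSelf _ m (cst k X)).hom ≫ s := by
  have e : a ≫ secHom (k := k) (val s) = s :=
    val_ext ((congrArg (app (secHom (val s)) ⊤) ha).trans (secHom_one _))
  exact (mk_f (A := P275S.Sh k X) a _ _).trans (congrArg (_ ≫ ·) e)

theorem thru_iff {K : Cx k X} {m : ℤ} {L : Der k X} (u : L ⟶ Q.obj K) (s : cst k X ⟶ K.X m) :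
    Thru (B := Sh k X) (K := K) u s ↔ ∃ hs, ThruH u (cls (F := K) (val s) hs) := by
  obtain ⟨a, ha⟩ := exists_al k X
  let e := (CochainComplex.singleFunctor (Sh k X) m ⋙ Q).mapIso a
  constructor
  · rintro ⟨c, φ, h1, h2⟩
    have hs : app (K.d m (m + 1)) ⊤ (val s) = 0 := by
      have h3 : s ≫ K.d m (m + 1) = 0 := by
        rw [← cancel_epi (HomologicalComplex.singleObjXSelf (.up ℤ) m (cst k X)).hom,
          ← Category.assoc, ← h1, comp_zero]
        exact (c.comm m (m + 1)).trans zero_comp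
      exact congrArg val h3
    have h4 : c = (CochainComplex.singleFunctor (Sh k X) m).map a.hom ≫ clsC (val s) hs :=
      HomologicalComplex.from_single_hom_ext (h1.trans (clsC_f a.hom ha s hs).symm)
    refine ⟨hs, e.inv ≫ φ, (Category.assoc _ _ _).trans ((Iso.inv_comp_eq e).2 ?_)⟩
    exact h2.trans ((congrArg Q.map h4).trans (Q.map_comp _ _))
  · rintro ⟨hs, φ, h⟩
    exact ⟨_, e.hom ≫ φ, clsC_f a.hom ha s hs, (Category.assoc _ _ _).trans
      ((congrArg (e.hom ≫ ·) h).trans ((Q (C := Sh k X)).map_comp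
        ((CochainComplex.singleFunctor (Sh k X) m).map a.hom) (clsC (val s) hs)).symm)⟩

variable (k X) in
/-- The injective resolution as a complex of sheaves. -/
def JJ : Cx k X := (rsl k X).cochainComplex

theorem injC_JJ : InjC (JJ k X) :=
  ⟨⟨0, inferInstanceAs ((rsl k X).cochainComplex.IsStrictlyGE 0)⟩,
    fun n => inferInstanceAs (Injective ((rsl k X).cochainComplex.X n))⟩

theorem em_val {m : ℕ} (t t' : cst k X ⟶ (JJ k X).X m) (ht ht') :
    em (rsl k X) t ht = em (rsl k X) t' ht' ↔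
      ∃ b, app ((JJ k X).d (m - 1) m) ⊤ b = val t - val t' := by
  refine (em_eq _ t t' ht ht').trans ⟨fun ⟨b, hb⟩ => ⟨val b, congrArg val hb⟩, fun ⟨b, hb⟩ => ?_⟩
  obtain ⟨b, rfl⟩ := val_surj b
  exact ⟨b, val_ext hb⟩

/-- The class in the hypercohomology of the direct image. -/
def pcls (f : X ⟶ Y) {K : Cx k X} {m : ℤ} (c : sec (K.X m) ⊤) (hc : app (K.d m (m + 1)) ⊤ c = 0) :
    (Q.obj (cstAt k Y m) : Der k Y) ⟶ Q.obj ((pushC k f).obj K) :=
  cls (F := (pushC k f).obj K) c hc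

theorem em_mem (f : X ⟶ Y) (w : ℤ) {m : ℕ} (t : cst k X ⟶ (JJ k X).X m) (ht) :
    em (rsl k X) t ht ∈ Wt k f w m ↔ TrLE (w - m) (pcls f (K := JJ k X) (val t) (congrArg val ht)) := by
  constructor
  · rintro ⟨t', h1, h2⟩
    obtain ⟨ht', h1⟩ := (rep_iff _ _ _).1 h1
    obtain ⟨b, hb⟩ := (em_val t t' ht ht').1 h1
    obtain ⟨hs, h3⟩ := (thru_iff (K := (pushC k f).obj (JJ k X)) _ _).1 h2
    exact (congrArg (TrLE (w - m)) (cls_eq_of (F := (pushC k f).obj (JJ k X)) _ hs b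
      (hb.trans (congrArg (val t - ·) (val_unit f t').symm)))).mpr h3
  · intro h
    exact ⟨t, (rep_iff _ _ _).2 ⟨ht, rfl⟩, (thru_iff (K := (pushC k f).obj (JJ k X)) _ _).2
      ⟨(congrArg _ (val_unit f t)).trans (congrArg val ht), (congrArg (TrLE (w - m))
        (cls_congr (F := (pushC k f).obj (JJ k X)) (val_unit f t) _ _)).mpr h⟩⟩

variable [Nice X]

variable (k X) in
theorem exists_cmp : ∃ (ε : (CochainComplex.singleFunctor (Sh k X) 0).obj (cst k X) ⟶ AS k X)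
    (ρ : AS k X ⟶ JJ k X), QuasiIso ε ∧ QuasiIso ρ ∧
    (Q.map ε ≫ Q.map ρ : (_ : Der k X) ⟶ _) = Q.map (rsl k X).ι' ∧
    val ((HomologicalComplex.singleObjXSelf _ 0 (cst k X)).inv ≫ ε.f 0) = asOne k X := by
  obtain ⟨a, ha⟩ := exists_al k X
  obtain ⟨s, hs⟩ := val_surj (G := (AS k X).X 0) (asOne k X)
  have h0 : app ((AS k X).d 0 (0 + 1)) ⊤ (val s) = 0 := by rw [hs]; exact d_asOne
  have h1 : QuasiIso (clsC (val s) h0) := by
    generalize val s = c at hs h0
    subst hs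
    exact quasiIso_AS
  let ε : (CochainComplex.singleFunctor (P275S.Sh k X) 0).obj (cst k X) ⟶ AS k X :=
    (CochainComplex.singleFunctor (P275S.Sh k X) 0).map a.hom ≫ clsC (val s) h0
  have h2 : QuasiIso ε := inferInstance
  let i : (CochainComplex.singleFunctor (P275S.Sh k X) 0).obj (cst k X) ⟶ JJ k X := (rsl k X).ι'
  have h3 : QuasiIso i := inferInstanceAs (QuasiIso (rsl k X).ι')
  obtain ⟨ρ, h4⟩ := KG.exists_lift_hom (k := k) ε injC_JJ i
  obtain ⟨h5⟩ := (KG.hom_eq_iff k (ε ≫ ρ) i).1 (by rw [KG.hom_comp]; exact h4)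
  have h6 : (Q.map ε ≫ Q.map ρ : (_ : Der k X) ⟶ _) = Q.map i :=
    (Q.map_comp _ _).symm.trans (Q_map_eq_of_homotopy _ h5)
  have h7 : IsIso (Q.map ρ : (_ : Der k X) ⟶ _) :=
    have : IsIso (Q.map ε ≫ Q.map ρ : (_ : Der k X) ⟶ _) := by rw [h6]; infer_instance
    IsIso.of_isIso_comp_left (Q.map ε) _
  refine ⟨ε, ρ, h2, (isIso_Q_map_iff_quasiIso _ ρ).1 h7, h6, Eq.trans (congrArg val ?_) hs⟩
  exact (Iso.inv_comp_eq _).2 (clsC_f a.hom ha s h0)

variable (k X) in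
/-- The augmentation. -/
def eps : (CochainComplex.singleFunctor (Sh k X) 0).obj (cst k X) ⟶ AS k X :=
  (exists_cmp k X).choose

variable (k X) in
/-- The comparison map. -/
def rho : AS k X ⟶ JJ k X := (exists_cmp k X).choose_spec.choose

instance : QuasiIso (eps k X) := (exists_cmp k X).choose_spec.choose_spec.1

instance : QuasiIso (rho k X) := (exists_cmp k X).choose_spec.choose_spec.2.1

/-- Cocycles. -/
def Cy (p : ℕ) (u : List X → k) : Prop := app ((AS k X).d p (p + 1)) ⊤ (am p ⊤ u) = 0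

theorem Cy.nr {p : ℕ} {u : List X → k} (h : Cy p u) (x : X) : Nr (p + 1) x (ASL.D k X u) := by
  rw [Cy, AS_d_mk (by omega) rfl] at h
  exact am_eq_zero.1 h x trivial

/-- Left multiplication by a cocycle. -/
def zL {p : ℕ} {u : List X → k} (h : Cy p u) : Cocycle (AS k X) (AS k X) p :=
  Cocycle.mk (asL p u) _ rfl (δ_asL p u h.nr)

/-- The class of an Alexander-Spanier cocycle. -/
def ea {p : ℕ} {u : List X → k} (h : Cy p u) : H k X p :=
  eo (A := Sh k X) (rsl k X) (eps k X) (rho k X) (zL h)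

theorem eo_val {m : ℕ} (z : Cocycle (AS k X) (AS k X) m) (t : cst k X ⟶ (JJ k X).X m) (ht)
    (h : val t = app ((rho k X).f m) ⊤ (app (z.1.v 0 m (zero_add _)) ⊤ (asOne k X))) :
    eo (A := Sh k X) (rsl k X) (eps k X) (rho k X) z = em (rsl k X) t ht :=
  eo_eq (A := Sh k X) _ _ _ z t ht (val_ext (h.trans (congrArg (fun c => app ((rho k X).f m) ⊤
    (app (z.1.v 0 m (zero_add _)) ⊤ c)) (exists_cmp k X).choose_spec.choose_spec.2.2.2.symm)))

variable {p q : ℕ} {u v : List X → k}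

theorem ea_em (h : Cy p u) : ∃ (t : cst k X ⟶ (JJ k X).X p) (ht : _),
    val t = app ((rho k X).f p) ⊤ (am p ⊤ u) ∧ ea h = em (rsl k X) t ht := by
  obtain ⟨t, e⟩ := val_surj (app ((rho k X).f p) ⊤ (am p ⊤ u))
  exact ⟨t, val_ext ((congrArg _ e).trans (cocy_map (rho k X) h)), e,
    eo_val _ t _ (e.trans (congrArg _ (asL_one p u).symm))⟩

theorem ea_surj (a : H k X p) : ∃ (u : List X → k) (h : Cy p u), ea h = a := by
  obtain ⟨t, ht, rfl⟩ := em_surj (rsl k X) a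
  have := qis_gam softC_AS injC_JJ.softC (rho k X) ⊤
  obtain ⟨c, hc, b, hb⟩ := gam_surj (rho k X) (val t) (congrArg val ht)
  obtain ⟨u, rfl⟩ := am_surj _ _ c
  obtain ⟨t', ht', e1, e2⟩ := ea_em hc
  exact ⟨u, hc, e2.trans ((em_val t t' ht ht').2 ⟨b, by rw [e1, ← hb, add_sub_cancel_left]⟩).symm⟩

theorem ea_eq (h : Cy p u) (h' : Cy p v) :
    ea h = ea h' ↔ ∃ b, app ((AS k X).d (p - 1) p) ⊤ b = am p ⊤ u - am p ⊤ v := by
  obtain ⟨t, ht, e1, e2⟩ := ea_em h
  obtain ⟨t', ht', e1', e2'⟩ := ea_em h'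
  have := qis_gam softC_AS injC_JJ.softC (rho k X) ⊤
  rw [e2, e2', em_val, e1, e1', ← map_sub]
  refine ⟨fun ⟨b, hb⟩ => gam_inj (rho k X) _ (by rw [map_sub, h, h', sub_zero]) b hb,
    fun ⟨b, hb⟩ => ⟨app ((rho k X).f _) ⊤ b, ?_⟩⟩
  rw [← hb, ← app_comp, (rho k X).comm, app_comp]

theorem Cy.sub (h : Cy p u) (h' : Cy p v) : Cy p (u - v) := by
  rw [Cy, map_sub, map_sub, h, h', sub_zero]

theorem ea_sub (h : Cy p u) (h' : Cy p v) : ea (h.sub h') = ea h - ea h' := by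
  obtain ⟨t, ht, e1, e2⟩ := ea_em h
  obtain ⟨t', ht', e1', e2'⟩ := ea_em h'
  rw [e2, e2']
  refine Eq.trans (eo_val _ (t - t') (by rw [Preadditive.sub_comp, ht, ht', sub_zero]) ?_)
    (em_sub _ _ _ _ _ _)
  exact (congrArg₂ (· - ·) e1 e1').trans (((map_sub _ _ _).symm.trans
    (congrArg _ (map_sub _ _ _).symm)).trans (congrArg _ (asL_one p _).symm))

theorem ea_mem (f : X ⟶ Y) (w : ℤ) (h : Cy p u) :
    ea h ∈ Wt k f w p ↔ TrLE (w - p) (cls (km f p ⊤ u) h) := by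
  obtain ⟨t, ht, e1, e2⟩ := ea_em h
  have := qis_push f softC_AS injC_JJ.softC (rho k X)
  rw [e2, em_mem, ← trLE_cls_qis ((pushC k f).map (rho k X)) (km f p ⊤ u) h]
  exact iff_of_eq (congrArg _ (cls_congr (F := (pushC k f).obj (JJ k X)) e1 _ _))

theorem am_cx (O : Opens X) {n : ℤ} (e : (q : ℤ) + p = n) (v u : List X → k) :
    am n O (ASL.cup q v u) = am n O (cx q v u) :=
  am_eq.2 (zn_of fun l _ c => sub_eq_zero.2 (by
    rw [cp_apply, pr_ne (by rw [Ne, List.drop_eq_nil_iff]; omega)]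
    rfl))

theorem zL_zL (h : Cy p u) (h' : Cy q v) {n : ℤ} (e : (p : ℤ) + q = n) :
    app ((zcomp (zL h) (zL h') e).1.v 0 n (zero_add _)) ⊤ (asOne k X) = am n ⊤ (cx q v u) := by
  rw [zcomp_coe, Cochain.comp_v _ _ e 0 p n (zero_add _) e, app_comp, ← am_cx (p := p) ⊤ (by omega)]
  exact (congrArg _ (asL_one p u)).trans (asL_mk q p _ v u ⊤)

theorem Cy.mul (h : Cy p u) (h' : Cy q v) : Cy (p + q) (cx q v u) := by
  rw [Cy, ← zL_zL h h' (by simp)]
  exact cocycle_app _ _ d_asOne _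

theorem ea_cup (h : Cy p u) (h' : Cy q v) : cup (ea h) (ea h') = ea (h.mul h') := by
  obtain ⟨t, ht, e1, e2⟩ := ea_em (h.mul h')
  rw [e2]
  exact (eo_comp (A := Sh k X) (rsl k X) (eps k X) (rho k X)
    (exists_cmp k X).choose_spec.choose_spec.2.2.1 _ _).trans
    (eo_val _ t ht (e1.trans (congrArg _ (zL_zL h h' _).symm)))

theorem cy_one : Cy 0 fun _ : List X => (1 : k) := d_asOne

theorem ea_one : ea (cy_one (k := k) (X := X)) = Ext.mk₀ (𝟙 _) := by
  obtain ⟨t, ht, e1, e2⟩ := ea_em (cy_one (k := k) (X := X))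
  rw [e2]
  refine (eo_val _ t ht ?_).symm.trans
    (eo_one (A := Sh k X) _ _ _ (exists_cmp k X).choose_spec.choose_spec.2.2.1)
  rw [Cocycle.ofHom_coe]
  erw [Cochain.ofHom_v]
  exact e1

/-- The Leray filtration is multiplicative. -/
theorem wt_cup [Nice Y] (f : X ⟶ Y) {w w' : ℤ} {a : H k X p} {b : H k X q}
    (ha : a ∈ Wt k f w p) (hb : b ∈ Wt k f w' q) : cup a b ∈ Wt k f (w + w') (p + q) := by
  obtain ⟨u, hu, rfl⟩ := ea_surj a
  obtain ⟨v, hv, rfl⟩ := ea_surj b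
  rw [ea_cup]
  refine (ea_mem f (w + w') (hu.mul hv)).2 (TrLE.mono (trLE_mul (f := f) (n := (p + q : ℕ)) v u
    hv hu (by omega) (hu.mul hv) ((ea_mem f w' hv).1 hb) ((ea_mem f w hu).1 ha)) (by omega))

end Vale.Agent.N275
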