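import Vale.Agent.P275S.ASL

/-! Functions on lists with values in a module; the algebra of the double complex. -/

noncomputable section

namespace Vale.Agent.N275

variable {k : Type} [Field k] {X Y M N L : Type} [AddCommGroup M] [Module k M]
  [AddCommGroup N] [Module k N] [AddCommGroup L] [Module k L]

/-- The coboundary of a function on lists. -/
def dd : List Y → (List Y → M) → M
  | [], _ => 0
  | y :: l, f => f l - dd l fun m => f (y :: m)

theorem dd_map (T : M →ₗ[k] N) (l : List Y) (f : List Y → M) :
    dd l (fun m => T (f m)) = T (dd l f) := by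
  induction l generalizing f with
  | nil => simp [dd]
  | cons y l ih => simp only [dd, map_sub, ih fun m => f (y :: m)]

theorem dd_add (l : List Y) (f g : List Y → M) :
    dd l (fun m => f m + g m) = dd l f + dd l g := by
  induction l generalizing f g with
  | nil => simp [dd]
  | cons y l ih =>
    simp only [dd, ih (fun m => f (y :: m)) fun m => g (y :: m)]
    abel

theorem dd_sub (l : List Y) (f g : List Y → M) :
    dd l (fun m => f m - g m) = dd l f - dd l g := by
  induction l generalizing f g with
  | nil => simp [dd]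
  | cons y l ih =>
    simp only [dd, ih (fun m => f (y :: m)) fun m => g (y :: m)]
    abel

theorem dd_smul (c : k) (l : List Y) (f : List Y → M) :
    dd l (fun m => c • f m) = c • dd l f := dd_map (c • LinearMap.id : M →ₗ[k] M) l f

theorem dd_mem (S : Submodule k M) (l : List Y) (f : List Y → M)
    (h : ∀ m : List Y, m.Sublist l → m.length + 1 = l.length → f m ∈ S) : dd l f ∈ S := by
  induction l generalizing f with
  | nil => exact S.zero_mem
  | cons y l ih =>
    exact S.sub_mem (h l (List.sublist_cons_self y l) rfl)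
      (ih _ fun m hm e => h _ (hm.cons_cons y) (by simp [e]))

theorem dd_congr (l : List Y) (f g : List Y → M)
    (h : ∀ m : List Y, m.Sublist l → m.length + 1 = l.length → f m = g m) : dd l f = dd l g := by
  induction l generalizing f g with
  | nil => rfl
  | cons y l ih =>
    simp only [dd]
    rw [h l (List.sublist_cons_self y l) rfl, ih _ _ fun m hm e => h _ (hm.cons_cons y) (by simp [e])]

theorem dd_zero (l : List Y) : dd l (fun _ => (0 : M)) = 0 := by
  induction l with
  | nil => rfl
  | cons y l ih => simp only [dd, ih, sub_self]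

theorem dd_dd (l : List Y) (f : List Y → M) : dd l (fun m => dd m f) = 0 := by
  induction l generalizing f with
  | nil => rfl
  | cons y l ih => simp only [dd, dd_sub, ih, sub_zero, sub_self]

theorem dd_eq (l : List X) (f : List X → k) : dd l f = P275S.ASL.D k X f l := by
  induction l generalizing f with
  | nil => rfl
  | cons y l ih => rw [P275S.ASL.D_cons, ← ih]; rfl

/-- Forget the value at the empty list. -/
def pr (f : List Y → M) : List Y → M
  | [] => 0
  | y :: l => f (y :: l)

theorem pr_ne {f : List Y → M} {l : List Y} (h : l ≠ []) : pr f l = f l := by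
  cases l with
  | nil => exact (h rfl).elim
  | cons y l => rfl

theorem pr_of {f : List Y → M} (h : f [] = 0) : pr f = f := by
  funext l
  cases l with
  | nil => exact h.symm
  | cons y l => rfl

theorem pr_map (T : M →ₗ[k] N) (f : List Y → M) (l : List Y) :
    pr (fun m => T (f m)) l = T (pr f l) := by
  cases l with
  | nil => exact (map_zero T).symm
  | cons y l => rfl

theorem pr_add (f g : List Y → M) (l : List Y) : pr (f + g) l = pr f l + pr g l := by
  cases l with
  | nil => exact (add_zero _).symm
  | cons y l => rfl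

theorem pr_smul (c : k) (f : List Y → M) (l : List Y) : pr (c • f) l = c • pr f l := by
  cases l with
  | nil => exact (smul_zero _).symm
  | cons y l => rfl

variable (k) in
/-- The reduced coboundary. -/
def DD : (List Y → M) →ₗ[k] (List Y → M) where
  toFun f l := dd l (pr f)
  map_add' f g := funext fun l => by
    rw [show pr (f + g) = fun m => pr f m + pr g m from funext (pr_add f g), dd_add]
    rfl
  map_smul' c f := funext fun l => by
    rw [show pr (c • f) = fun m => c • pr f m from funext (pr_smul c f), dd_smul]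
    rfl

theorem DD_apply (f : List Y → M) (l : List Y) : DD k f l = dd l (pr f) := rfl

theorem DD_nil (f : List Y → M) : DD k f [] = 0 := rfl

theorem DD_one (f : List Y → M) (y : Y) : DD k f [y] = 0 := sub_self (0 : M)

theorem DD_short (f : List Y → M) {l : List Y} (h : l.length ≤ 1) : DD k f l = 0 := by
  match l, h with
  | [], _ => rfl
  | [y], _ => exact DD_one f y

theorem DD_DD (f : List Y → M) : DD k (DD k f) = 0 := funext fun l => by
  rw [DD_apply, pr_of (DD_nil f)]
  exact dd_dd l _

theorem DD_long (f : List Y → M) {l : List Y} (h : 2 ≤ l.length) : DD k f l = dd l f :=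
  dd_congr l _ _ fun m _ e => pr_ne (by rintro rfl; simp at e; omega)

theorem DD_map (T : M →ₗ[k] N) (f : List Y → M) (l : List Y) :
    DD k (fun m => T (f m)) l = T (DD k f l) := by
  rw [DD_apply, show pr (fun m => T (f m)) = fun m => T (pr f m) from funext (pr_map T f), dd_map]
  rfl

theorem DD_mem (S : Submodule k M) (l : List Y) (f : List Y → M)
    (h : ∀ m : List Y, m.Sublist l → m.length + 1 = l.length → m ≠ [] → f m ∈ S) :
    DD k f l ∈ S :=
  dd_mem S l _ fun m h1 h2 => by
    by_cases h3 : m = []
    · subst h3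
      exact S.zero_mem
    · rw [pr_ne h3]
      exact h m h1 h2 h3

/-- The cup product for a bilinear map; the first factor has degree `p`. -/
def cp (μ : M →ₗ[k] N →ₗ[k] L) (p : ℕ) : (List Y → M) →ₗ[k] (List Y → N) →ₗ[k] (List Y → L) :=
  LinearMap.mk₂ k (fun a b l => μ (a (l.take (p + 1))) (pr b (l.drop p)))
    (fun _ _ _ => funext fun _ => by simp)
    (fun _ _ _ => funext fun _ => by simp)
    (fun _ _ _ => funext fun _ => by simp [pr_add])
    (fun _ _ _ => funext fun _ => by simp [pr_smul])

theorem cp_apply (μ : M →ₗ[k] N →ₗ[k] L) (p : ℕ) (a : List Y → M) (b : List Y → N) (l : List Y) :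
    cp μ p a b l = μ (a (l.take (p + 1))) (pr b (l.drop p)) := rfl

theorem cp_short (μ : M →ₗ[k] N →ₗ[k] L) {p : ℕ} (a : List Y → M) (b : List Y → N) {l : List Y}
    (h : l.length ≤ p) : cp μ p a b l = 0 := by
  rw [cp_apply, List.drop_eq_nil_of_le h]
  exact map_zero _

theorem dd_cp (μ : M →ₗ[k] N →ₗ[k] L) (p : ℕ) (a : List Y → M) (b : List Y → N) (l : List Y)
    (h : p + 2 ≤ l.length) :
    dd l (fun m => μ (a (m.take (p + 1))) (b (m.drop p))) =
      μ (dd (l.take (p + 2)) a) (b (l.drop (p + 1))) +
        (-1 : k) ^ p • μ (a (l.take (p + 1))) (dd (l.drop p) b) := by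
  induction p generalizing a l with
  | zero =>
    match l, h with
    | x :: y :: l, _ =>
      have := dd_map (μ (a [x])) (y :: l) fun m => b (x :: m)
      rw [dd]
      simp only [List.take_succ_cons, List.take_zero, List.drop_zero, List.drop_succ_cons, this]
      simp only [dd, map_sub, LinearMap.sub_apply, sub_zero, pow_zero, one_smul]
      abel
  | succ p ih =>
    match l, h with
    | x :: l, h =>
      rw [dd]
      simp only [List.take_succ_cons, List.drop_succ_cons]
      rw [ih (fun m => a (x :: m)) l (by simpa using h)]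
      simp only [dd, map_sub, LinearMap.sub_apply, pow_succ, mul_neg, mul_one, neg_smul]
      abel

theorem DD_cp (μ : M →ₗ[k] N →ₗ[k] L) (p : ℕ) (a : List Y → M) (b : List Y → N) :
    DD k (cp μ p a b) = cp μ (p + 1) (DD k a) b + (-1 : k) ^ p • cp μ p a (DD k b) := by
  funext l
  rw [Pi.add_apply, Pi.smul_apply]
  by_cases h : p + 2 ≤ l.length
  · rw [DD_long _ (by omega), cp_apply, cp_apply, pr_of (DD_nil b),
      DD_long a (by rw [List.length_take]; omega)]
    exact dd_cp μ p a (pr b) l h
  · rw [cp_short μ _ b (by omega), cp_apply, pr_of (DD_nil b),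
      DD_short b (by rw [List.length_drop]; omega), map_zero, smul_zero, add_zero]
    exact (Submodule.mem_bot k).1 (DD_mem ⊥ l _ fun m _ e _ => cp_short μ a b (by omega))

theorem cp_zero_DD (μ : M →ₗ[k] N →ₗ[k] L) (a : List Y → M) (b : List Y → N) :
    cp μ 0 (DD k a) b = 0 := funext fun l => by
  rw [cp_apply, DD_short a (by rw [List.length_take]; omega), map_zero]
  rfl

/-- The sign of the degree. -/
def sgn : (List Y → M) →ₗ[k] (List Y → M) where
  toFun f l := (-1 : k) ^ (l.length + 1) • f l
  map_add' _ _ := funext fun _ => smul_add _ _ _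
  map_smul' _ _ := funext fun _ => smul_comm _ _ _

theorem sgn_apply (f : List Y → M) (l : List Y) :
    sgn (k := k) f l = (-1 : k) ^ (l.length + 1) • f l := rfl

theorem sgn_sgn (f : List Y → M) : sgn (k := k) (sgn (k := k) f) = f := funext fun l => by
  rw [sgn_apply, sgn_apply, smul_smul, ← pow_add, ← two_mul, pow_mul]
  simp

theorem DD_sgn (f : List Y → M) : DD k (sgn (k := k) f) = -sgn (k := k) (DD k f) := funext fun l => by
  rw [Pi.neg_apply, sgn_apply, DD_apply, DD_apply, ← neg_smul, ← dd_smul]
  refine dd_congr l _ _ fun m _ e => ?_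
  rw [← e, pow_succ, mul_neg, mul_one, neg_neg]
  cases m with
  | nil => exact (smul_zero _).symm
  | cons y m => rfl

theorem sgn_cp (μ : M →ₗ[k] N →ₗ[k] L) (p : ℕ) (a : List Y → M) (b : List Y → N) :
    sgn (k := k) (cp μ p a b) = (-1 : k) ^ p • cp μ p a (sgn (k := k) b) := funext fun l => by
  rw [Pi.smul_apply, sgn_apply]
  by_cases h : l.length ≤ p
  · rw [cp_short μ a b h, cp_short μ a _ h, smul_zero, smul_zero]
  · have h1 : l.drop p ≠ [] := by rw [Ne, List.drop_eq_nil_iff]; exact h
    rw [cp_apply, cp_apply, pr_ne h1, pr_ne h1, sgn_apply, map_smul, smul_smul, ← pow_add,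
      List.length_drop, show p + (l.length - p + 1) = l.length + 1 by omega]

theorem cp_sgn (μ : M →ₗ[k] N →ₗ[k] L) (p : ℕ) (a : List Y → M) (b : List Y → N) :
    cp μ p (sgn (k := k) a) b = (-1 : k) ^ p • cp μ p a b := funext fun l => by
  rw [Pi.smul_apply]
  by_cases h : l.length ≤ p
  · rw [cp_short μ a b h, cp_short μ _ _ h, smul_zero]
  · rw [cp_apply, cp_apply, sgn_apply, map_smul, LinearMap.smul_apply, List.length_take,
      min_eq_left (by omega), pow_succ, pow_succ]
    simp

/-- Functions of two lists. -/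
abbrev PP (k X Y : Type) : Type := List Y → List X → k

/-- The coboundary in the second variable. -/
def DX : PP k X Y →ₗ[k] PP k X Y := (DD k).compLeft (List Y)

theorem DX_apply (φ : PP k X Y) (l : List Y) : DX φ l = DD k (φ l) := rfl

/-- The total coboundary. -/
def DT : PP k X Y →ₗ[k] PP k X Y := DD k + sgn ∘ₗ DX

theorem DT_apply (φ : PP k X Y) : DT φ = DD k φ + sgn (k := k) (DX φ) := rfl

theorem DD_DX (φ : PP k X Y) : DD k (DX φ) = DX (DD k φ) := funext fun l => DD_map (DD k) φ l

theorem DX_sgn (φ : PP k X Y) : DX (sgn (k := k) φ) = sgn (k := k) (DX φ) :=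
  funext fun _ => map_smul (DD k) _ _

theorem DX_DX (φ : PP k X Y) : DX (DX φ) = 0 := funext fun l => DD_DD (k := k) (φ l)

theorem DT_DT (φ : PP k X Y) : DT (DT φ) = 0 := by
  simp only [DT_apply, map_add, DD_DD, DD_sgn, DX_sgn, DX_DX, DD_DX, map_zero]
  abel

/-- The cup product in the second variable. -/
abbrev cx (s : ℕ) : (List X → k) →ₗ[k] (List X → k) →ₗ[k] (List X → k) := cp (LinearMap.mul k k) s

theorem DX_cp (r s : ℕ) (φ ψ : PP k X Y) : DX (cp (cx s) r φ ψ) =
    cp (cx (s + 1)) r (DX φ) ψ + (-1 : k) ^ s • cp (cx s) r φ (DX ψ) := funext fun l => by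
  rw [DX_apply, cp_apply, DD_cp, Pi.add_apply, Pi.smul_apply, cp_apply, cp_apply]
  exact congrArg (fun t => _ + (-1 : k) ^ s • cx s _ t) (pr_map (DD k) ψ _).symm

theorem cp_zero_DX (r : ℕ) (φ ψ : PP k X Y) : cp (cx 0) r (DX φ) ψ = 0 :=
  funext fun l => cp_zero_DD (LinearMap.mul k k) (φ (l.take (r + 1))) (pr ψ (l.drop r))

theorem DD_pow (s : ℕ) (ψ : List Y → M) :
    DD k ((sgn (k := k) ^ s) ψ) = (-1 : k) ^ s • (sgn (k := k) ^ s) (DD k ψ) := by
  induction s with
  | zero => simp
  | succ s ih => rw [pow_succ', Module.End.mul_apply, DD_sgn, ih, map_smul, pow_succ]; simp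

theorem DX_pow (s : ℕ) (ψ : PP k X Y) :
    DX ((sgn (k := k) ^ s) ψ) = (sgn (k := k) ^ s) (DX ψ) := by
  induction s with
  | zero => rfl
  | succ s ih => rw [pow_succ', Module.End.mul_apply, DX_sgn, ih]; rfl

/-- The product in the double complex; the first factor has total degree `p`. -/
def mul (p : ℕ) : PP k X Y →ₗ[k] PP k X Y →ₗ[k] PP k X Y :=
  ∑ i ∈ Finset.HasAntidiagonal.antidiagonal p, (cp (cx i.2) i.1).compl₂ (sgn ^ i.2)

theorem mul_ap (p : ℕ) (φ ψ : PP k X Y) : mul p φ ψ =
    ∑ i ∈ Finset.HasAntidiagonal.antidiagonal p, cp (cx i.2) i.1 φ ((sgn (k := k) ^ i.2) ψ) := by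
  simp [mul, LinearMap.sum_apply]

theorem DT_mul (p : ℕ) (φ ψ : PP k X Y) :
    DT (mul p φ ψ) = mul (p + 1) (DT φ) ψ + (-1 : k) ^ p • mul p φ (DT ψ) := by
  have h1 : mul (p + 1) (DD k φ) ψ = ∑ i ∈ Finset.HasAntidiagonal.antidiagonal p,
      cp (cx i.2) (i.1 + 1) (DD k φ) ((sgn (k := k) ^ i.2) ψ) := by
    rw [mul_ap, Finset.Nat.sum_antidiagonal_succ, cp_zero_DD, zero_add]
  have h2 : mul (p + 1) (sgn (k := k) (DX φ)) ψ = ∑ i ∈ Finset.HasAntidiagonal.antidiagonal p,
      (-1 : k) ^ i.1 • cp (cx (i.2 + 1)) i.1 (DX φ) ((sgn (k := k) ^ (i.2 + 1)) ψ) := by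
    rw [mul_ap, Finset.Nat.sum_antidiagonal_succ', cp_sgn, cp_zero_DX, smul_zero, zero_add]
    simp only [cp_sgn]
  rw [DT_apply φ, map_add, LinearMap.add_apply, h1, h2, mul_ap, mul_ap, map_sum,
    Finset.smul_sum, ← Finset.sum_add_distrib, ← Finset.sum_add_distrib]
  refine Finset.sum_congr rfl fun i hi => ?_
  rw [← Finset.HasAntidiagonal.mem_antidiagonal.1 hi, DT_apply, DT_apply, DD_cp, DX_cp, DD_pow, DX_pow]
  simp only [map_add, map_smul, sgn_cp, smul_add, smul_smul, pow_add, pow_one,
    Module.End.mul_apply]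
  rw [mul_comm ((-1 : k) ^ i.2), ← Module.End.mul_apply sgn (sgn ^ i.2) ψ,
    ← Module.End.mul_apply sgn (sgn ^ i.2) (DX ψ), ← pow_succ', pow_succ]
  simp only [Module.End.mul_apply]
  abel

theorem mul_zero_DT (φ ψ : PP k X Y) : mul 0 (DT φ) ψ = 0 := by
  rw [mul_ap, Finset.Nat.antidiagonal_zero, Finset.sum_singleton, DT_apply, map_add,
    LinearMap.add_apply, cp_zero_DD, cp_sgn, cp_zero_DX, smul_zero, add_zero]

/-- A function of the second list as a function of bidegree `(0, s)`. -/
def io : (List X → k) →ₗ[k] PP k X Y where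
  toFun a l := if l.length = 1 then a else 0
  map_add' a b := funext fun l => by by_cases h : l.length = 1 <;> simp [h]
  map_smul' c a := funext fun l => by by_cases h : l.length = 1 <;> simp [h]

theorem io_apply (a : List X → k) (l : List Y) : io a l = if l.length = 1 then a else 0 := rfl

theorem DT_io (a : List X → k) : DT (io a : PP k X Y) = io (DD k a) := funext fun l => by
  have h1 : DD k (io a : PP k X Y) l = 0 := by
    match l with
    | [] => rfl
    | [y] => exact DD_one _ y
    | [y, z] => simp [DD_apply, dd, pr, io_apply]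
    | y :: z :: w :: l =>
      exact (Submodule.mem_bot k).1 (DD_mem ⊥ _ _ fun m _ e _ => by
        rw [io_apply, if_neg (by simp at e; omega)]; exact Submodule.zero_mem _)
  rw [DT_apply, Pi.add_apply, h1, zero_add, sgn_apply, DX_apply, io_apply, io_apply]
  by_cases h : l.length = 1 <;> simp [h]

theorem pow_io (s : ℕ) (a : List X → k) : (sgn (k := k) ^ s) (io a : PP k X Y) = io a := by
  induction s with
  | zero => rfl
  | succ s ih =>
    rw [pow_succ', Module.End.mul_apply, ih]
    funext l
    rw [sgn_apply, io_apply]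
    by_cases h : l.length = 1 <;> simp [h]

theorem mul_io (p : ℕ) (a b : List X → k) : mul p (io a : PP k X Y) (io b) = io (cx p a b) := by
  rw [mul_ap, Finset.sum_eq_single (0, p)]
  · funext l
    rw [pow_io, cp_apply]
    match l with
    | [] => simp [pr, io_apply]
    | [y] => simp [pr, io_apply]
    | y :: z :: l => simp [pr, io_apply]
  · intro i hi h
    funext l
    have h1 : i.1 ≠ 0 := fun e => h (Prod.ext e (by
      have := Finset.HasAntidiagonal.mem_antidiagonal.1 hi; simpa [e] using this))
    by_cases h2 : l.length ≤ i.1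
    · exact cp_short _ _ _ h2
    · rw [cp_apply, io_apply, if_neg (by rw [List.length_take]; omega), map_zero]
      rfl
  · intro h
    exact (h (by simp)).elim

/-- The cone construction. -/
def cn (y : Y) (φ : PP k X Y) : PP k X Y := fun l => φ (y :: l)

theorem cone (y : Y) (φ : PP k X Y) {l : List Y} (h : l ≠ []) :
    φ l = DT (cn y φ) l + cn y (DT φ) l + io (φ [y]) l := by
  have h1 : dd l (cn y φ) = DD k (cn y φ) l + io (φ [y]) l := by
    match l, h with
    | [z], _ => simp [DD_one, dd, io_apply, cn]
    | z :: w :: l, _ => rw [DD_long _ (by simp), io_apply, if_neg (by simp), add_zero]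
  have h2 : cn y (DT φ) l = φ l - dd l (cn y φ) - sgn (k := k) (DX (cn y φ)) l := by
    change pr φ l - dd l (cn y φ) + (-1 : k) ^ (l.length + 1 + 1) • DD k (φ (y :: l)) = _
    rw [pr_ne h, pow_succ, mul_neg, mul_one, neg_smul]
    exact (sub_eq_add_neg _ _).symm
  rw [h2, h1, DT_apply, Pi.add_apply]
  abel

theorem DT_one (y : Y) (φ : PP k X Y) : DT φ [y] = DD k (φ [y]) := by
  rw [DT_apply, Pi.add_apply, DD_one, zero_add, sgn_apply]
  simp [DX_apply]

end Vale.Agent.N275
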